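import Vale.Agent.P202.Mixed.Assemble.Data

/-!
# P202 mixed characteristic: vectors over the lattice with `B` adjoined
-/

noncomputable section

namespace Vale.Agent.P202.Mixed.Assemble

open IsLocalRing TensorProduct

universe u

variable {P A B : Type u} [CommRing P] [CommRing A] [CommRing B] [Algebra P A] [Algebra P B]
  {r : ℕ}

theorem inA_apply (a : A) : (inA a : (R2 P A B)) = a ⊗ₜ[P] (1 : B) := rfl

theorem inB_apply (b : B) : (inB b : (R2 P A B)) = (1 : A) ⊗ₜ[P] b := rfl

theorem inB_mul_inA (b : B) (a : A) : (inB b : (R2 P A B)) * inA a = a ⊗ₜ[P] b := by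
  rw [inA_apply, inB_apply, Algebra.TensorProduct.tmul_mul_tmul, one_mul, mul_one]

theorem inA_algebraMap (π : P) :
    (inA (algebraMap P A π) : (R2 P A B)) = inB (algebraMap P B π) := by
  rw [inA_apply, inB_apply, Algebra.algebraMap_eq_smul_one, Algebra.algebraMap_eq_smul_one,
    TensorProduct.smul_tmul]

theorem incV_add (a b : Fin r → A) : (incV (a + b) : Fin r → (R2 P A B)) = incV a + incV b :=
  funext fun _ => map_add _ _ _

theorem incV_zero : (incV (0 : Fin r → A) : Fin r → (R2 P A B)) = 0 := funext fun _ => map_zero _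

theorem incV_sub (a b : Fin r → A) : (incV (a - b) : Fin r → (R2 P A B)) = incV a - incV b :=
  funext fun _ => map_sub _ _ _

theorem incV_smul (c : A) (a : Fin r → A) :
    (incV (c • a) : Fin r → (R2 P A B)) = (inA c : (R2 P A B)) • incV a :=
  funext fun _ => map_mul _ _ _

theorem incV_mulVec (M : Matrix (Fin r) (Fin r) A) (a : Fin r → A) :
    (incV (M.mulVec a) : Fin r → (R2 P A B)) = matV M (incV a) := by
  funext i
  exact RingHom.map_mulVec inA M a i

/-- Every vector is a combination of lattice vectors. -/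
theorem vec_induction {motive : (Fin r → (R2 P A B)) → Prop} (h0 : motive 0)
    (hbase : ∀ (b : B) (a : Fin r → A), motive ((inB b : (R2 P A B)) • incV a))
    (hadd : ∀ y y', motive y → motive y' → motive (y + y')) (y : Fin r → (R2 P A B)) : motive y := by
  classical
  rw [← Finset.univ_sum_single y]
  refine Finset.sum_induction _ motive hadd h0 fun i _ => ?_
  induction y i using TensorProduct.induction_on with
  | zero => rw [Pi.single_zero]; exact h0
  | tmul a b =>
    have : (Pi.single i (a ⊗ₜ[P] b) : Fin r → (R2 P A B)) = (inB b : (R2 P A B)) • incV (Pi.single i a) := by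
      funext j
      rcases eq_or_ne j i with rfl | hj
      · simp [incV, inB_mul_inA]
      · simp [incV, hj]
    rw [this]
    exact hbase b _
  | add x x' hx hx' => rw [Pi.single_add]; exact hadd _ _ hx hx'

theorem matV_one (y : Fin r → (R2 P A B)) : matV (1 : Matrix (Fin r) (Fin r) A) y = y := by
  simp [matV]

theorem matV_mul (M N : Matrix (Fin r) (Fin r) A) (y : Fin r → (R2 P A B)) :
    matV (M * N) y = matV M (matV N y) := by
  simp only [matV, Matrix.map_mul, Matrix.mulVecLin_apply, Matrix.mulVec_mulVec]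

theorem matV_pow_succ (M : Matrix (Fin r) (Fin r) A) (k : ℕ) (y : Fin r → (R2 P A B)) :
    matV (M ^ (k + 1)) y = matV M (matV (M ^ k) y) := by
  rw [pow_succ', matV_mul]

theorem mem_vecIn {I : Ideal A} {a : Fin r → A} : a ∈ vecIn I ↔ ∀ i, a i ∈ I :=
  ⟨fun h i => h i trivial, fun h i _ => h i⟩

theorem mulVec_mem_vecIn {I : Ideal A} (M : Matrix (Fin r) (Fin r) A) {a : Fin r → A}
    (ha : a ∈ vecIn I) : M.mulVec a ∈ vecIn I :=
  mem_vecIn.2 fun i => by
    rw [Matrix.mulVec, dotProduct]
    exact Ideal.sum_mem _ fun j _ => Ideal.mul_mem_left _ _ (ha j trivial)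

theorem mulVec_mem_mul {I J : Ideal A} {M : Matrix (Fin r) (Fin r) A} (hM : ∀ i j, M i j ∈ I)
    {a : Fin r → A} (ha : a ∈ vecIn J) : M.mulVec a ∈ vecIn (I * J) :=
  mem_vecIn.2 fun i => by
    rw [Matrix.mulVec, dotProduct]
    exact Ideal.sum_mem _ fun j _ => Ideal.mul_mem_mul (hM i j) (ha j trivial)

theorem vecIn_mono {I J : Ideal A} (h : I ≤ J) : (vecIn I : Submodule A (Fin r → A)) ≤ vecIn J :=
  fun _ ha i _ => h (ha i trivial)

theorem PEq.mulVec {p n : ℕ} {M M' : Matrix (Fin r) (Fin r) A} (h : PEq p n M M')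
    (a : Fin r → A) : M.mulVec a - M'.mulVec a ∈ vecIn (Ideal.span {(p : A) ^ n}) := by
  rw [← Matrix.sub_mulVec]
  refine mem_vecIn.2 fun i => ?_
  rw [Matrix.mulVec, dotProduct]
  exact Ideal.sum_mem _ fun j _ =>
    Ideal.mul_mem_right _ _ (Ideal.mem_span_singleton.2 (h i j))

theorem smul_mulVec_comm (c : A) (M : Matrix (Fin r) (Fin r) A) (a : Fin r → A) :
    M.mulVec (c • a) = c • M.mulVec a := Matrix.mulVec_smul M c a

section Mu

variable (hP : P) (hcok : ∀ b : B, ∃ π : P, algebraMap P B π = algebraMap P B hP * b)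

/-- The ideal of the lattice generated by the kernel of the structure map. -/
def kerA (P A B : Type u) [CommRing P] [CommRing A] [CommRing B] [Algebra P A] [Algebra P B] :
    Ideal A :=
  (RingHom.ker (algebraMap P B)).map (algebraMap P A)

/-- A representative of `h * b`. -/
def rep (b : B) : P := (hcok b).choose

theorem rep_spec (b : B) : algebraMap P B (rep hP hcok b) = algebraMap P B hP * b :=
  (hcok b).choose_spec

theorem mk_rep_congr {π π' : P} (h : algebraMap P B π = algebraMap P B π') :
    Ideal.Quotient.mk (kerA P A B) (algebraMap P A π) =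
      Ideal.Quotient.mk (kerA P A B) (algebraMap P A π') := by
  rw [Ideal.Quotient.eq, ← map_sub]
  exact Ideal.mem_map_of_mem _ (by rw [RingHom.mem_ker, map_sub, h, sub_self])

/-- Multiplication by `h` followed by rewriting in the lattice, on one coordinate. -/
def repLin : B →ₗ[P] A ⧸ kerA P A B where
  toFun b := Ideal.Quotient.mk _ (algebraMap P A (rep hP hcok b))
  map_add' b b' := by
    rw [← map_add, ← map_add]
    exact mk_rep_congr (by simp [rep_spec, mul_add])
  map_smul' c b := by
    rw [RingHom.id_apply, Algebra.smul_def, Algebra.smul_def,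
      IsScalarTower.algebraMap_apply P A (A ⧸ kerA P A B), Ideal.Quotient.algebraMap_eq, ← map_mul,
      ← map_mul]
    exact mk_rep_congr (by simp [rep_spec, mul_left_comm])

/-- The map `A ⊗ B → A / kerA` induced by multiplication by `h`. -/
def mu : (R2 P A B) →ₗ[A] A ⧸ kerA P A B := (repLin hP hcok).liftBaseChange A

theorem mu_tmul (a : A) (b : B) :
    mu hP hcok (a ⊗ₜ[P] b : (R2 P A B)) = Ideal.Quotient.mk _ (a * algebraMap P A (rep hP hcok b)) := by
  rw [mu, LinearMap.liftBaseChange_tmul, map_mul]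
  rfl

theorem mu_inA (a : A) :
    mu hP hcok (inA a : (R2 P A B)) = Ideal.Quotient.mk _ (a * algebraMap P A hP) := by
  rw [inA_apply, mu_tmul, map_mul, map_mul, mk_rep_congr (π := rep hP hcok 1) (π' := hP)
    (by rw [rep_spec, mul_one])]

theorem inA_mem_of_kerA {a : A} (ha : a ∈ kerA P A B) : (inA a : (R2 P A B)) = 0 := by
  refine (Ideal.map_le_iff_le_comap.2 (fun π hπ => ?_) :
    kerA P A B ≤ RingHom.ker (inA : A →+* (R2 P A B))) ha
  rw [Ideal.mem_comap, RingHom.mem_ker, inA_algebraMap, (RingHom.mem_ker.1 hπ : _), map_zero]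

/-- Vectors times `h` come from the lattice, through `mu`. -/
theorem smul_eq_incV {y : Fin r → (R2 P A B)} {a : Fin r → A}
    (ha : ∀ i, Ideal.Quotient.mk _ (a i) = mu hP hcok (y i)) :
    (inB (algebraMap P B hP) : (R2 P A B)) • y = incV a := by
  funext i
  rw [Pi.smul_apply, smul_eq_mul]
  have key : ∀ q : (R2 P A B), ∃ a : A, Ideal.Quotient.mk _ a = mu hP hcok q ∧
      (inB (algebraMap P B hP) : (R2 P A B)) * q = inA a := by
    intro q
    induction q using TensorProduct.induction_on with
    | zero => exact ⟨0, by simp, by simp⟩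
    | tmul a b =>
      refine ⟨a * algebraMap P A (rep hP hcok b), (mu_tmul hP hcok a b).symm, ?_⟩
      rw [map_mul, inA_algebraMap, rep_spec, map_mul, ← inB_mul_inA b a]
      ring
    | add q q' hq hq' =>
      obtain ⟨a, h1, h2⟩ := hq
      obtain ⟨a', h1', h2'⟩ := hq'
      exact ⟨a + a', by rw [map_add, map_add, h1, h1'], by rw [mul_add, h2, h2', map_add]⟩
  obtain ⟨a', h1, h2⟩ := key (y i)
  rw [h2]
  refine sub_eq_zero.1 ?_
  rw [incV, ← map_sub]
  exact inA_mem_of_kerA ((Ideal.Quotient.eq).1 (h1.trans (ha i).symm))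

/-- A lift of `mu` on a vector. -/
def lift (y : Fin r → (R2 P A B)) : Fin r → A := fun i =>
  (Ideal.Quotient.mk_surjective (mu hP hcok (y i))).choose

theorem mk_lift (y : Fin r → (R2 P A B)) (i : Fin r) :
    Ideal.Quotient.mk _ (lift hP hcok y i) = mu hP hcok (y i) :=
  (Ideal.Quotient.mk_surjective (mu hP hcok (y i))).choose_spec

theorem smul_eq_incV_lift (y : Fin r → (R2 P A B)) :
    (inB (algebraMap P B hP) : (R2 P A B)) • y = incV (lift hP hcok y) :=
  smul_eq_incV hP hcok (mk_lift hP hcok y)

end Mu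

end Vale.Agent.P202.Mixed.Assemble
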