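import Vale.Agent.P202.Mixed.Assemble.Lengths

/-!
# P202 mixed characteristic: lattice data give a chain
-/

noncomputable section

namespace Vale.Agent.P202.Mixed.Assemble

open IsLocalRing TensorProduct

universe u

variable {P A B : Type u} [CommRing P] [CommRing A] [CommRing B] [Algebra P A] [Algebra P B]
  [IsLocalRing B] {r p d D Q K v D₁ E₀ mB mM : ℕ} {x : Fin d → B} {h : B}

namespace Data

variable (T : Data P A B p x h D Q K v D₁ E₀ r mB mM)

instance (l : ℕ) : IsScalarTower P (Rz B d) (T.Mod l) :=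
  IsScalarTower.of_algebraMap_smul fun π m => by
    rw [rz_smul, IsScalarTower.algebraMap_apply P B (Rz B d), MvPolynomial.algebraMap_eq, zHom_C,
      ← IsScalarTower.algebraMap_smul B π m]
    exact algebraMap_smul (R2 P A B) (algebraMap P B π) m

instance (l : ℕ) : IsScalarTower P (R2 P A B) (T.Mod l) :=
  inferInstanceAs (IsScalarTower P (R2 P A B) ((Fin r → (R2 P A B)) ⧸ T.MKer l))

/-- Lattice vectors times a generator of `B`. -/
def genMap (i : Fin mB) : (Fin r → A) →ₗ[P] (Fin r → (R2 P A B)) where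
  toFun a := (inB (T.genB i) : (R2 P A B)) • incV a
  map_add' a b := by rw [incV_add, smul_add]
  map_smul' π a := by
    rw [RingHom.id_apply, ← algebraMap_smul A π a, incV_smul, smul_comm,
      ← IsScalarTower.algebraMap_smul (R2 P A B) π]
    rfl

theorem genMap_apply (i : Fin mB) (a : Fin r → A) :
    T.genMap i a = (inB (T.genB i) : (R2 P A B)) • incV a := rfl

theorem iSup_range_genMap : ⨆ i, LinearMap.range (T.genMap i) = ⊤ := by
  refine eq_top_iff.2 fun y _ => ?_
  refine vec_induction (motive := fun y => y ∈ ⨆ i, LinearMap.range (T.genMap i)) (zero_mem _)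
    (fun b a => ?_) (fun y y' hy hy' => add_mem hy hy') y
  have hb : b ∈ Submodule.span P (Set.range T.genB) := T.genB_span ▸ Submodule.mem_top
  induction hb using Submodule.span_induction with
  | mem c hc =>
    obtain ⟨i, rfl⟩ := hc
    exact Submodule.mem_iSup_of_mem i ⟨a, rfl⟩
  | zero => rw [map_zero, zero_smul]; exact zero_mem _
  | add c c' _ _ hc hc' => rw [map_add, add_smul]; exact add_mem hc hc'
  | smul π c _ hc =>
    rw [Algebra.smul_def π c, map_mul, ← inA_algebraMap, mul_smul]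
    have : (inA (algebraMap P A π) : (R2 P A B)) • ((inB c : (R2 P A B)) • (incV a : Fin r → (R2 P A B))) =
        π • ((inB c : (R2 P A B)) • incV a) := by
      rw [← IsScalarTower.algebraMap_smul (R2 P A B) π]; rfl
    rw [this]
    exact Submodule.smul_mem _ π hc

include T in
/-- A `B`-module covered by vectors has length at most `mB` quotients of the lattice. -/
theorem length_cover {W : Type u} [AddCommGroup W] [Module B W] [Module P W] [IsScalarTower P B W]
    (f : (Fin r → (R2 P A B)) →ₗ[B] W) (hf : Function.Surjective f) (N : Submodule A (Fin r → A))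
    (hN : ∀ a ∈ N, ∀ b : B, f ((inB b : (R2 P A B)) • incV a) = 0) :
    Module.length B W ≤ (mB : ℕ∞) * qlen P N := by
  rw [← T.len_eq W]
  refine (length_le_gen (fun i => (f.restrictScalars P).comp (T.genMap i)) N
    (fun i a ha => hN a ha _) ?_).trans (le_of_eq (by rw [Fintype.card_fin]))
  simp only [LinearMap.range_comp, ← Submodule.map_iSup, T.iSup_range_genMap, Submodule.map_top]
  exact LinearMap.range_eq_top.2 hf

theorem incV_W0 {l : ℕ} {a : Fin r → A} (ha : a ∈ T.W0 l) :
    (incV a : Fin r → (R2 P A B)) ∈ T.MKer l := by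
  obtain ⟨_, ⟨b, rfl⟩, y, hy, rfl⟩ := Submodule.mem_sup.1 ha
  rw [incV_add, Matrix.mulVecLin_apply]
  refine add_mem (Submodule.mem_sup_left (T.Δ_ker l b)) ?_
  choose z hz c hc e using fun i => Submodule.mem_sup.1 (hy i trivial)
  choose c' hc' using fun i => Ideal.mem_span_singleton'.1 (hc i)
  have hy' : y = z + (p : A) ^ T.n • c' := funext fun i => by
    rw [← e i, ← hc' i]; simp [mul_comm]
  rw [hy', incV_add, incV_smul, map_pow, map_natCast]
  exact add_mem (Submodule.mem_sup_right (incV_mem_sp (mem_vecIn.2 hz)))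
    (Submodule.mem_sup_left (T.p_ker l _))

theorem mkM_W0 {l : ℕ} {a : Fin r → A} (ha : a ∈ T.W0 l) (b : B) :
    T.mkM l ((inB b : (R2 P A B)) • incV a) = 0 :=
  T.mkM_eq_zero.2 (Submodule.smul_mem _ _ (T.incV_W0 ha))

theorem mkM_slack (l : ℕ) (b : B) (a : Fin r → A) :
    T.mkM l ((inB b : (R2 P A B)) • incV (T.slack.mulVec a)) =
      T.opMod l (T.mkM l ((inB b : (R2 P A B)) • incV a)) := by
  rw [opMod_mkM, map_smul (matV T.slack), incV_mulVec]

theorem length_Mod_le (l : ℕ) : Module.length B (T.Mod l) ≤ (mB : ℕ∞) * qlen P (T.W0 l) :=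
  T.length_cover ((T.mkM l).restrictScalars B) (T.mkM_surjective l) _ fun _ ha b => T.mkM_W0 ha b

theorem length_Mod_ne_top (l : ℕ) : Module.length B (T.Mod l) ≠ ⊤ :=
  ne_top_of_le_ne_top (WithTop.mul_ne_top (ENat.natCast_ne_top _) (T.qlen_W0_ne_top l)) (T.length_Mod_le l)

/-- The constant of the errors. -/
def errC (v D mB : ℕ) : ℕ := (mB + 1) * (cslack v + D * v + 1)

theorem mB_slack_le : mB * cslack v ≤ errC v D mB :=
  Nat.mul_le_mul (Nat.le_succ _) (by omega)

theorem length_coker_opMod (hK : 1 ≤ K) (l : ℕ) :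
    Module.length B (T.Mod l ⧸ LinearMap.range (T.opMod l)) ≤
      ((mB * cslack v * E₀ : ℕ) : ℕ∞) := by
  refine (T.length_cover (((LinearMap.range (T.opMod l)).mkQ.restrictScalars B).comp
    ((T.mkM l).restrictScalars B)) ((Submodule.mkQ_surjective _).comp (T.mkM_surjective l))
    (T.W0 l ⊔ LinearMap.range T.slack.mulVecLin) fun a ha b => ?_).trans ?_
  · refine (Submodule.Quotient.mk_eq_zero _).2 ?_
    obtain ⟨a₀, ha₀, _, ⟨c, rfl⟩, rfl⟩ := Submodule.mem_sup.1 ha
    rw [incV_add, smul_add, Matrix.mulVecLin_apply]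
    change T.mkM l _ ∈ _
    rw [map_add, T.mkM_W0 ha₀, zero_add, T.mkM_slack]
    exact ⟨_, rfl⟩
  · rw [Nat.mul_assoc, Nat.cast_mul mB]
    gcongr
    exact T.qlen_W0_slack hK l

theorem length_upper (hK : 1 ≤ K) (l : ℕ) :
    Module.length B (T.Mod l ⧸ (zIdeal B d • (⊤ : Submodule (Rz B d) (T.Mod l)))) ≤
      ((D₁ + errC v D mB * E₀ : ℕ) : ℕ∞) := by
  set Z := zIdeal B d • (⊤ : Submodule (Rz B d) (T.Mod l))
  let q : (Fin r → (R2 P A B)) →ₗ[B] T.Mod l ⧸ Z :=
    (Z.mkQ.restrictScalars B).comp ((T.mkM l).restrictScalars B)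
  have hq : Function.Surjective q := (Submodule.mkQ_surjective _).comp (T.mkM_surjective l)
  let g₀ : (Fin r → A) →ₗ[P] (Fin r → (R2 P A B)) :=
    { toFun := incV
      map_add' := incV_add
      map_smul' := fun π a => by
        rw [RingHom.id_apply, ← algebraMap_smul A π a, incV_smul,
          ← IsScalarTower.algebraMap_smul (R2 P A B) π]
        rfl }
  let G := LinearMap.range ((q.restrictScalars P).comp g₀)
  rw [← T.len_eq (T.Mod l ⧸ Z), length_quot_eq G]
  have h1 : Module.length P G ≤ qlen P (T.W0 l ⊔ vecIn (zId T.z)) := by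
    refine (length_le_gen (fun _ : Fin 1 => LinearMap.rangeRestrict ((q.restrictScalars P).comp g₀))
      (T.W0 l ⊔ vecIn (zId T.z)) (fun _ a ha => ?_) ?_).trans (le_of_eq (by simp))
    · refine LinearMap.mem_ker.2 (Subtype.ext ?_)
      obtain ⟨a₀, ha₀, a₁, ha₁, rfl⟩ := Submodule.mem_sup.1 ha
      refine (Submodule.Quotient.mk_eq_zero Z).2 ?_
      change T.mkM l (incV (a₀ + a₁)) ∈ Z
      rw [incV_add, map_add, T.mkM_eq_zero.2 (T.incV_W0 ha₀), zero_add,
        show (incV a₁ : Fin r → (R2 P A B)) = fun i => inA (a₁ i) from rfl]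
      rw [← Finset.univ_sum_single (fun i => (inA (a₁ i) : (R2 P A B))), map_sum]
      refine Submodule.sum_mem _ fun i _ => ?_
      have hi := ha₁ i trivial
      generalize a₁ i = c at hi ⊢
      rw [show Pi.single i (inA c : (R2 P A B)) = (inA c : (R2 P A B)) • (Pi.single i 1 : Fin r → (R2 P A B)) by
        rw [← Pi.single_smul', smul_eq_mul, mul_one], map_smul]
      generalize T.mkM l (Pi.single i 1) = m
      induction hi using Submodule.span_induction generalizing m with
      | mem c hc =>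
        obtain ⟨j, rfl⟩ := hc
        rw [← T.zHom_X j, ← rz_smul]
        exact Submodule.smul_mem_smul (Ideal.subset_span (Set.mem_range_self _)) Submodule.mem_top
      | zero => rw [map_zero, zero_smul]; exact zero_mem _
      | add c c' _ _ hc hc' => rw [map_add, add_smul]; exact add_mem (hc m) (hc' m)
      | smul k c _ hc => rw [smul_eq_mul, mul_comm, map_mul, mul_smul]; exact hc _
    · rw [iSup_const]
      exact LinearMap.range_rangeRestrict _
  have h2 : Module.length P ((T.Mod l ⧸ Z) ⧸ G) ≤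
      (mB : ℕ∞) * qlen P (T.W0 l ⊔ LinearMap.range T.slack.mulVecLin) := by
    refine (length_le_gen (fun i => G.mkQ.comp ((q.restrictScalars P).comp (T.genMap i))) _
      (fun i a ha => ?_) ?_).trans (le_of_eq (by rw [Fintype.card_fin]))
    · refine (Submodule.Quotient.mk_eq_zero G).2 ?_
      obtain ⟨a₀, ha₀, _, ⟨c, rfl⟩, rfl⟩ := Submodule.mem_sup.1 ha
      rw [LinearMap.comp_apply, genMap_apply, incV_add, smul_add, Matrix.mulVecLin_apply]
      change q (_ + _) ∈ G
      rw [map_add]
      refine add_mem ?_ ?_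
      · rw [show q ((inB (T.genB i) : (R2 P A B)) • incV a₀) = 0 from
          (congrArg Z.mkQ (T.mkM_W0 ha₀ _)).trans (map_zero _)]
        exact zero_mem _
      obtain ⟨a', -, ha'⟩ := T.pull (l := l) (T.vecIn_stable ⊤)
        (y := (inB (T.genB i) : (R2 P A B)) • incV c)
        (Submodule.smul_mem _ _ (incV_mem_sp (mem_vecIn.2 fun _ => trivial)))
      obtain ⟨a'', -, ha''⟩ := T.pull_more (l := l) (j := 1) (k := 2 * v + 1) (T.vecIn_stable ⊤)
        (y := (inB (T.genB i) : (R2 P A B)) • incV c) (by omega)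
        ⟨a', mem_vecIn.2 fun _ => trivial, by rwa [pow_one]⟩
      refine ⟨T.s • a'', ?_⟩
      change Z.mkQ (T.mkM l (incV (T.s • a''))) = Z.mkQ (T.mkM l _)
      refine congrArg Z.mkQ ?_
      rw [incV_mulVec, ← map_smul (matV T.slack), slack, matV_smul, incV_smul,
        map_smul, map_smul]
      refine congrArg (fun m => (inA T.s : (R2 P A B)) • m) ?_
      rw [← sub_eq_zero, ← map_sub, T.mkM_eq_zero, ← neg_sub]
      exact neg_mem (Submodule.mem_sup_left ha'')
    · simp only [LinearMap.range_comp, ← Submodule.map_iSup, T.iSup_range_genMap,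
        Submodule.map_top]
      rw [LinearMap.range_eq_top.2 (show Function.Surjective (q.restrictScalars P) from hq),
        Submodule.map_top, Submodule.range_mkQ]
  refine (add_le_add h1 h2).trans ?_
  refine (add_le_add (T.qlen_one hK l) (mul_le_mul' le_rfl (T.qlen_W0_slack hK l))).trans ?_
  rw [← Nat.cast_mul, ← Nat.cast_add]
  refine Nat.cast_le.2 ?_
  have : (1 + mB * cslack v) * E₀ ≤ errC v D mB * E₀ := Nat.mul_le_mul_right _ (by
    rw [errC]; nlinarith [Nat.zero_le (D * v)])
  rw [Nat.add_mul, Nat.one_mul, Nat.mul_assoc] at this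
  omega

/-- The kernel of the slack on a quotient of a module of finite length. -/
theorem length_le_coker_op (l : ℕ) (S : Submodule (Rz B d) (T.Mod l))
    (f : T.Mod l →ₗ[Rz B d] T.Mod l) (hS : S ≤ S.comap f) (U : Submodule B (T.Mod l))
    (hU : ∀ m ∈ U, f m ∈ S) :
    Module.length B ↥(Submodule.map (S.restrictScalars B).mkQ U) ≤
      Module.length B (T.Mod l ⧸ LinearMap.range f) := by
  let g : (T.Mod l ⧸ S.restrictScalars B) →ₗ[B] T.Mod l ⧸ S.restrictScalars B :=
    Submodule.mapQ _ _ (f.restrictScalars B) hS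
  have hfin : Module.length B (T.Mod l ⧸ S.restrictScalars B) ≠ ⊤ :=
    ne_top_of_le_ne_top (T.length_Mod_ne_top l)
      (Module.length_le_of_surjective _ (Submodule.mkQ_surjective _))
  have hle : Submodule.map (S.restrictScalars B).mkQ U ≤ LinearMap.ker g := by
    rintro _ ⟨m, hm, rfl⟩
    exact (Submodule.Quotient.mk_eq_zero _).2 (hU m hm)
  refine (Module.length_le_of_injective (Submodule.inclusion hle)
    (Submodule.inclusion_injective _)).trans ?_
  have h1 := Module.length_eq_add_of_exact (LinearMap.ker g).subtype g.rangeRestrict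
    (Submodule.subtype_injective _) g.surjective_rangeRestrict (by
      rw [LinearMap.exact_iff, LinearMap.ker_rangeRestrict, Submodule.range_subtype])
  rw [length_quot_eq (LinearMap.range g), add_comm] at h1 hfin
  have hr : Module.length B (LinearMap.range g) ≠ ⊤ := ne_top_of_le_ne_top hfin le_add_self
  rw [add_comm (Module.length B (LinearMap.ker g))] at h1
  rw [add_comm] at h1
  have h2 := (ENat.addLECancellable_of_ne_top hr).inj.1 h1
  rw [← h2]
  refine Module.length_le_of_surjective ((LinearMap.range f).restrictScalars B |>.liftQ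
    ((LinearMap.range g).mkQ.comp (S.restrictScalars B).mkQ) ?_) ?_ |>.trans_eq ?_
  · rintro _ ⟨m, rfl⟩
    exact (Submodule.Quotient.mk_eq_zero _).2 ⟨Submodule.Quotient.mk m, rfl⟩
  · intro z
    obtain ⟨z, rfl⟩ := Submodule.mkQ_surjective _ z
    obtain ⟨m, rfl⟩ := Submodule.mkQ_surjective _ z
    exact ⟨Submodule.Quotient.mk m, rfl⟩
  · exact (Submodule.Quotient.restrictScalarsEquiv B _).length_eq

theorem length_deep (hK : 1 ≤ K) (l : ℕ) :
    Module.length B ↥(Submodule.map
      ((zIdeal B d ^ K • (⊤ : Submodule (Rz B d) (T.Mod l))).restrictScalars B).mkQ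
      (maximalIdeal B • (⊤ : Submodule B (T.Mod l)))) ≤ ((mB * cslack v * E₀ : ℕ) : ℕ∞) := by
  refine (T.length_le_coker_op l _ (T.opMod l)
    (fun n hn => Submodule.smul_induction_on hn
      (fun w hw n' _ => by
        rw [Submodule.mem_comap, LinearMap.map_smul]
        exact Submodule.smul_mem_smul hw Submodule.mem_top)
      fun a b ha hb => add_mem ha hb) _ fun m hm => ?_).trans (T.length_coker_opMod hK l)
  refine Submodule.smul_induction_on hm (fun β hβ m _ => ?_)
    (fun a b ha hb => by rw [map_add]; exact add_mem ha hb)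
  obtain ⟨y, rfl⟩ := T.mkM_surjective l m
  set u := min K v
  have hy : (inB β : (R2 P A B)) • y ∈ T.filR u := by
    have h1 : (maximalIdeal B).map inB ≤ T.wR u := by
      rw [T.wR_eq]
      refine le_iSup_of_le 1 (le_iSup_of_le 0 (le_iSup_of_le
        (by simp only [Nat.one_mul, Nat.add_zero]; exact min_le_left _ _) ?_))
      rw [pow_one, pow_zero, Ideal.one_eq_top, Ideal.map_top, Ideal.mul_top]
    exact Submodule.smul_mem_smul (h1 (Ideal.mem_map_of_mem inB hβ)) Submodule.mem_top
  obtain ⟨a, ha, he⟩ := T.pull_more (l := l) (T.vecIn_stable (zId T.z ^ u))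
    (show 2 * u + 1 ≤ 2 * v + 1 by omega) (T.filR_le_pulled hK l u hy 1)
  rw [one_smul] at he
  have hmk : T.opMod l (β • T.mkM l y) = (inA T.s : (R2 P A B)) • T.mkM l (incV a) := by
    rw [← (T.mkM l).map_smul_of_tower, opMod_mkM, smul_B, slack, matV_smul, map_smul (T.mkM l)]
    refine congrArg _ ?_
    rw [← sub_eq_zero, ← map_sub, T.mkM_eq_zero]
    exact Submodule.mem_sup_left he
  rw [hmk, ← map_smul (T.mkM l), ← incV_smul]
  rcases le_total K v with hKv | hKv
  · rw [show u = K from min_eq_left hKv] at ha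
    have h1 : ∀ i, (inA ((T.s • a) i) : (R2 P A B)) ∈ (zIdeal B d ^ K).map T.zHom := fun i => by
      rw [map_zIdeal]
      exact Ideal.mem_map_of_mem _ (Ideal.mul_mem_left _ _ (ha i trivial))
    rw [show (incV (T.s • a) : Fin r → (R2 P A B)) = fun i => inA ((T.s • a) i) from rfl,
      ← Finset.univ_sum_single (fun i => (inA ((T.s • a) i) : (R2 P A B))), map_sum]
    refine Submodule.sum_mem _ fun i _ => ?_
    have hi := h1 i
    generalize (inA ((T.s • a) i) : (R2 P A B)) = c at hi ⊢
    rw [show Pi.single i c = c • (Pi.single i 1 : Fin r → (R2 P A B)) by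
      rw [← Pi.single_smul', smul_eq_mul, mul_one], map_smul]
    generalize T.mkM l (Pi.single i 1) = m
    induction hi using Submodule.span_induction generalizing m with
    | mem c hc =>
      obtain ⟨w, hw, rfl⟩ := hc
      exact Submodule.smul_mem_smul hw Submodule.mem_top
    | zero => rw [zero_smul]; exact zero_mem _
    | add c c' _ _ hc hc' => rw [add_smul]; exact add_mem (hc m) (hc' m)
    | smul k c _ hc => rw [smul_eq_mul, mul_comm, mul_smul]; exact hc _
  · rw [show u = v from min_eq_right hKv] at ha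
    rw [T.mkM_eq_zero.2 (Submodule.mem_sup_right (incV_mem_sp (Submodule.smul_mem _ _ ha)))]
    exact zero_mem _

theorem length_lev_small {l w : ℕ} (hl : l < D) (hw : w ≤ v) :
    Module.length B ↥(Submodule.map
      ((fil B (d := d) (T.Mod l) K ((w - l * K : ℕ) : ℤ)).restrictScalars B).mkQ
        ((T.levM l w).restrictScalars B)) ≤ ((mB * (D * v + 1) * E₀ : ℕ) : ℕ∞) := by
  set k := D * v + 1
  let f : T.Mod l →ₗ[Rz B d] T.Mod l :=
    { toFun := fun m => (inA (T.s ^ k) : (R2 P A B)) • m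
      map_add' := smul_add _
      map_smul' := fun w' m => smul_comm _ (T.zHom w') m }
  refine (T.length_le_coker_op l _ f (fun m hm => ?_) _ fun m hm => ?_).trans ?_
  · obtain ⟨y, hy, rfl⟩ := (T.fil_eq l _).1 hm
    exact (T.fil_eq l _).2 ⟨_, Submodule.smul_mem _ _ hy, map_smul _ _ _⟩
  · obtain ⟨y, hy, rfl⟩ := hm
    change (inA (T.s ^ k) : (R2 P A B)) • T.mkM l y ∈ _
    rw [← map_smul]
    obtain ⟨q, hq, y₃, hy₃, rfl⟩ := Submodule.mem_sup.1 hy
    obtain ⟨y₁, hy₁, y₂, hy₂, rfl⟩ := Submodule.mem_sup.1 hq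
    suffices ∀ y ∈ sp (T.Kn l w), ∃ z ∈ T.filR (w - l * K),
        T.mkM l ((inA (T.s ^ k) : (R2 P A B)) • y) = T.mkM l z by
      obtain ⟨z, hz, he⟩ := this y₃ hy₃
      refine (T.fil_eq l _).2 ⟨(inA (T.s ^ k) : (R2 P A B)) • y₂ + z, add_mem (Submodule.smul_mem _ _ hy₂) hz, ?_⟩
      rw [map_add, smul_add, smul_add, map_add, map_add,
        T.mkM_eq_zero.2 (Submodule.mem_sup_left (Submodule.smul_mem _ _ hy₁)), zero_add, he]
    intro y hy
    refine sp_induction (motive := fun y => ∃ z ∈ T.filR (w - l * K),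
        T.mkM l ((inA (T.s ^ k) : (R2 P A B)) • y) = T.mkM l z) ⟨0, zero_mem _, by simp⟩
      (fun b a ha => ?_) (fun y y' ⟨z, hz, e⟩ ⟨z', hz', e'⟩ => ⟨z + z', add_mem hz hz', by
        rw [smul_add, map_add, map_add, e, e']⟩) hy
    obtain ⟨c, hc⟩ := T.Kn_small hl hw ha
    obtain ⟨j, hj⟩ := Nat.exists_eq_add_of_le (show l * w + 1 ≤ k by
      have := Nat.mul_le_mul hl.le hw
      omega)
    refine ⟨(inB b : (R2 P A B)) • incV (T.s ^ j • (T.s ^ (l * w + 1) • a - (T.Δ l).mulVec c)),
      Submodule.smul_mem _ _ (T.sp_box_le_filR _ (incV_mem_sp (Submodule.smul_mem _ _ hc))), ?_⟩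
    rw [← sub_eq_zero, ← map_sub, T.mkM_eq_zero, smul_comm, ← incV_smul, ← smul_sub, ← incV_sub,
      hj, add_comm (l * w + 1), pow_add, mul_smul, ← smul_sub, sub_sub_cancel, incV_smul]
    exact Submodule.smul_mem _ _ (Submodule.smul_mem _ _ (Submodule.mem_sup_left (T.Δ_ker l c)))
  · refine (T.length_cover (((LinearMap.range f).mkQ.restrictScalars B).comp
      ((T.mkM l).restrictScalars B)) ((Submodule.mkQ_surjective _).comp (T.mkM_surjective l))
      (T.W0 l ⊔ LinearMap.range (sc (T.s ^ k))) fun a ha b => ?_).trans ?_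
    · refine (Submodule.Quotient.mk_eq_zero _).2 ?_
      obtain ⟨a₀, ha₀, _, ⟨c, rfl⟩, rfl⟩ := Submodule.mem_sup.1 ha
      change T.mkM l _ ∈ _
      rw [incV_add, smul_add, map_add, T.mkM_W0 ha₀, zero_add, sc, LinearMap.smul_apply,
        LinearMap.id_apply, incV_smul, smul_comm, map_smul]
      exact ⟨_, rfl⟩
    · rw [Nat.mul_assoc, Nat.cast_mul mB]
      gcongr
      exact T.qlen_s_pow le_sup_right k

theorem length_lower (hK : 1 ≤ K) (l : ℕ) :
    ((D₁ * monCount d v : ℕ) : ℕ∞) ≤ Module.length B (T.Mod l) + ((cslack v * E₀ : ℕ) : ℕ∞) := by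
  let ι₀ : (Fin r → A) →ₗ[P] T.Mod l :=
    { toFun := fun a => T.mkM l (incV a)
      map_add' := fun a b => by rw [incV_add, map_add]
      map_smul' := fun π a => by
        rw [RingHom.id_apply, ← algebraMap_smul A π a, incV_smul,
          ← (T.mkM l).map_smul_of_tower π, ← IsScalarTower.algebraMap_smul (R2 P A B) π (incV a : Fin r → (R2 P A B))]
        rfl }
  let N₃ : Submodule A (Fin r → A) :=
    { carrier := {a | T.mkM l (incV a) = 0}
      zero_mem' := by simp [incV_zero]
      add_mem' := fun {a b} (ha : _ = 0) (hb : _ = 0) =>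
        show _ = 0 by rw [incV_add, map_add, ha, hb, add_zero]
      smul_mem' := fun c a (ha : _ = 0) =>
        show _ = 0 by rw [incV_smul, map_smul, ha, smul_zero] }
  have h1 : qlen P N₃ ≤ Module.length B (T.Mod l) := by
    rw [← T.len_eq (T.Mod l)]
    exact Module.length_le_of_injective ((N₃.restrictScalars P).liftQ ι₀ fun a ha => ha)
      (LinearMap.ker_eq_bot.1 ((Submodule.ker_liftQ_eq_bot _ _ _ fun a ha => ha)))
  have h2 : N₃ ≤ (T.W0 l).comap T.slack.mulVecLin := by
    intro a ha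
    obtain ⟨y₁, hy₁, y₂, hy₂, he⟩ := Submodule.mem_sup.1 (T.mkM_eq_zero.1 ha)
    obtain ⟨a₂, ha₂, e₂⟩ := T.pull (l := l) (T.vecIn_stable _) hy₂
    obtain ⟨a₂', ha₂', e₂'⟩ := T.pull_more (l := l) (j := 1) (k := 2 * v + 1) (T.vecIn_stable _)
      (y := y₂) (by omega) ⟨a₂, ha₂, by rwa [pow_one]⟩
    have hker : (incV ((T.Γ ^ (2 * v + 1)).mulVec a - a₂') : Fin r → (R2 P A B)) ∈ T.Ker l := by
      rw [incV_sub, incV_mulVec, ← he, map_add, add_sub_assoc]
      exact add_mem (T.matV_Γ_pow_Ker l hy₁ _) e₂'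
    obtain ⟨b, hb⟩ := T.kernel l _ hker
    rw [Submodule.mem_comap, Matrix.mulVecLin_apply, slack, Matrix.smul_mulVec]
    have h3 := add_mem (Submodule.mem_sup_right (vecIn_mono le_sup_right hb) : _ ∈ T.W0 l)
      (add_mem (Submodule.mem_sup_left (LinearMap.mem_range_self (T.Δ l).mulVecLin b))
        (Submodule.mem_sup_right (Submodule.smul_mem _ T.s (vecIn_mono le_sup_left ha₂'))))
    rw [Matrix.mulVecLin_apply] at h3
    refine (congrArg (· ∈ T.W0 l) ?_).mpr h3
    rw [smul_sub]
    abel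
  calc ((D₁ * monCount d v : ℕ) : ℕ∞) ≤ qlen P (T.W0 l) := T.le_qlen_W0 l
    _ ≤ qlen P (T.W0 l ⊔ LinearMap.range T.slack.mulVecLin) + qlen P N₃ := qlen_le_range _ h2
    _ ≤ ((cslack v * E₀ : ℕ) : ℕ∞) + Module.length B (T.Mod l) :=
        add_le_add (T.qlen_W0_slack hK l) h1
    _ = _ := add_comm _ _

theorem length_coker_opKer {l w : ℕ} (hw : w ≤ v) :
    Module.length B (LinearMap.ker (T.projX l w) ⧸ LinearMap.range (T.opKer l w)) ≤
      ((mB * cslack v * E₀ : ℕ) : ℕ∞) := by
  refine (T.length_cover ((LinearMap.range (T.opKer l w)).mkQ.comp (T.toKer l w))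
    ((Submodule.mkQ_surjective _).comp (T.toKer_surjective l w))
    (vecIn (T.box v) ⊔ LinearMap.range T.slack.mulVecLin) fun a ha b => ?_).trans ?_
  · refine (Submodule.Quotient.mk_eq_zero _).2 ?_
    obtain ⟨a₀, ha₀, _, ⟨c, rfl⟩, rfl⟩ := Submodule.mem_sup.1 ha
    rw [incV_add, smul_add, map_add]
    refine add_mem ?_ ⟨T.toKer l w ((inB b : (R2 P A B)) • incV c), ?_⟩
    · have : T.toKer l w ((inB b : (R2 P A B)) • incV a₀) = 0 := Subtype.ext ((Submodule.Quotient.mk_eq_zero _).2
        (Submodule.mem_sup_left (by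
          rw [map_smul, ← incV_mulVec]
          exact Submodule.smul_mem _ _ (incV_mem_sp (mulVec_mem_vecIn _
            (vecIn_mono (T.box_anti hw) ha₀))))))
      rw [this]
      exact zero_mem _
    · rw [T.opKer_toKer hw, Matrix.mulVecLin_apply, incV_mulVec, map_smul (matV T.slack)]
  · rw [Nat.mul_assoc, Nat.cast_mul mB]
    gcongr
    exact T.qlen_box_slack

/-- The top of the weight kills the module. -/
theorem top_smul (l : ℕ) :
    zIdeal B d ^ v • (⊤ : Submodule (Rz B d) (T.Mod l)) = ⊥ := by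
  refine eq_bot_iff.2 (Submodule.smul_le.2 fun w hw m hm => ?_)
  clear hm
  obtain ⟨y, rfl⟩ := T.mkM_surjective l m
  rw [Submodule.mem_bot, rz_smul, ← map_smul, T.mkM_eq_zero]
  refine Submodule.mem_sup_right ?_
  have hq : T.zHom w ∈ (zId T.z ^ v).map (inA : A →+* (R2 P A B)) := T.map_zIdeal v ▸ Ideal.mem_map_of_mem _ hw
  generalize T.zHom w = q at hq ⊢
  induction hq using Submodule.span_induction generalizing y with
  | mem c hc =>
    obtain ⟨a, ha, rfl⟩ := hc
    refine vec_induction (motive := fun y => (inA a : (R2 P A B)) • y ∈ sp (vecIn (zId T.z ^ v)))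
      (by rw [smul_zero]; exact zero_mem _) (fun b a' => ?_)
      (fun y y' hy hy' => by rw [smul_add]; exact add_mem hy hy') y
    rw [smul_comm, ← incV_smul]
    exact Submodule.smul_mem _ _ (incV_mem_sp (mem_vecIn.2 fun i => Ideal.mul_mem_right _ _ ha))
  | zero => rw [zero_smul]; exact zero_mem _
  | add c c' _ _ hc hc' => rw [add_smul]; exact add_mem (hc y) (hc' y)
  | smul k c _ hc => rw [smul_eq_mul, mul_comm, mul_smul]; exact hc _

theorem x_smul (l : ℕ) (a : Fin d) (m : T.Mod l) :
    x a • m = (MvPolynomial.X a : Rz B d) ^ Q • m := by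
  rw [rz_smul, map_pow, zHom_X, ← map_pow, T.z_pow, inA_algebraMap, T.x_eq,
    ← algebraMap_smul (R2 P A B) (x a) m]
  rfl

theorem almostFree (hK : 1 ≤ K) (l : ℕ) :
    AlmostFree B (T.Mod l) x Q K v D₁ (errC v D mB * E₀) where
  finite := T.length_Mod_ne_top l
  x_smul := T.x_smul l
  top_smul := T.top_smul l
  upper := T.length_upper hK l
  lower := (T.length_lower hK l).trans (add_le_add le_rfl (Nat.cast_le.2 (Nat.mul_le_mul_right _
    (by rw [errC]; nlinarith [Nat.zero_le (D * v)]))))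
  deep := (T.length_deep hK l).trans (Nat.cast_le.2 (Nat.mul_le_mul_right _ mB_slack_le))

theorem subsingleton_X_zero (w : ℕ) : Subsingleton (T.XMod 0 w) :=
  Submodule.Quotient.subsingleton_iff.2 (eq_top_iff.2 fun y _ =>
    Submodule.mem_sup_right ⟨y, matV_one y⟩)

/-- The two comparisons give the slack on the module. -/
theorem to_ofX (hK : 1 ≤ K) {l w : ℕ} (hw : w ≤ v) (m : T.Mod l) :
    T.toLevX (fun hw => T.ker_toKer hw) l w
        (T.ofLevX hK l w (Submodule.Quotient.mk (p := T.levM l w) m)) =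
      h ^ 3 • Submodule.Quotient.mk (T.opMod l m) := by
  obtain ⟨y, rfl⟩ := T.mkM_surjective l m
  change T.toLevX _ l w (T.ofLevX hK l w (T.mkLev l w y)) =
    h ^ 3 • T.mkLev l w (matV T.slack y)
  rw [T.ofLevX_mkLev hK hw, map_smul, T.toLevX_toKer hw, smul_smul, ← pow_succ']

/-- The two comparisons give the slack on the kernel. -/
theorem of_toX (hK : 1 ≤ K) {l w : ℕ} (hw : w ≤ v) (z : LinearMap.ker (T.projX l w)) :
    T.ofLevX hK l w (T.toLevX (fun hw => T.ker_toKer hw) l w z) = h ^ 3 • T.opKer l w z := by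
  obtain ⟨y, rfl⟩ := T.toKer_surjective l w z
  rw [T.toLevX_toKer hw, map_smul, T.ofLevX_mkLev hK hw, T.opKer_toKer hw, smul_smul, ← pow_succ]

/-- The comparison commutes with the transitions. -/
theorem to_resX {l w w' : ℕ} (hw : w ≤ w') (hw' : w' ≤ v) (z : LinearMap.ker (T.projX l w'))
    (z' : LinearMap.ker (T.projX l w))
    (hz : (z' : T.XMod (l + 1) w) = T.resX (l + 1) w w' hw (z : T.XMod (l + 1) w')) (m : T.Mod l)
    (hm : T.toLevX (fun hw => T.ker_toKer hw) l w' z = Submodule.Quotient.mk m) :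
    T.toLevX (fun hw => T.ker_toKer hw) l w z' = Submodule.Quotient.mk m := by
  obtain ⟨y, rfl⟩ := T.toKer_surjective l w' z
  have hz' : z' = T.toKer l w y := Subtype.ext (hz.trans rfl)
  subst hz'
  obtain ⟨y', rfl⟩ := T.mkM_surjective l m
  rw [T.toLevX_toKer hw'] at hm
  rw [T.toLevX_toKer (hw.trans hw')]
  have h1 : T.mkLev l w' (h ^ 2 • y - y') = 0 := by
    rw [map_sub, map_smul]; exact sub_eq_zero.2 hm
  have h2 := (T.mkLev_eq_zero (hw.trans hw')).2 (T.levR_anti hw ((T.mkLev_eq_zero hw').1 h1))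
  rw [map_sub, map_smul, sub_eq_zero] at h2
  exact h2

/-- The comparison back commutes with the transitions. -/
theorem of_resX (hK : 1 ≤ K) {l w w' : ℕ} (hw : w ≤ w') (hw' : w' ≤ v) (m : T.Mod l) :
    T.resX (l + 1) w w' hw
        (T.ofLevX hK l w' (Submodule.Quotient.mk m) : T.XMod (l + 1) w') =
      (T.ofLevX hK l w (Submodule.Quotient.mk m) : T.XMod (l + 1) w) := by
  obtain ⟨y, rfl⟩ := T.mkM_surjective l m
  change T.resX (l + 1) w w' hw (T.ofLevX hK l w' (T.mkLev l w' y) : T.XMod (l + 1) w') =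
    (T.ofLevX hK l w (T.mkLev l w y) : T.XMod (l + 1) w)
  rw [T.ofLevX_mkLev hK hw', T.ofLevX_mkLev hK (hw.trans hw')]
  rfl

theorem projX_mk (l w : ℕ) (y : Fin r → (R2 P A B)) :
    T.projX l w (Submodule.Quotient.mk y) = Submodule.Quotient.mk y := by
  rw [projX, LinearMap.restrictScalars_apply]
  exact Submodule.factor_mk (T.relR_le_succ l w) y

theorem resX_mk (l w w' : ℕ) (hw : w ≤ w') (y : Fin r → (R2 P A B)) :
    T.resX l w w' hw (Submodule.Quotient.mk y) = Submodule.Quotient.mk y := by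
  rw [resX, LinearMap.restrictScalars_apply]
  exact Submodule.factor_mk (T.relR_anti l hw) y

theorem projX_surjective (l w : ℕ) : Function.Surjective (T.projX l w) := fun z => by
  obtain ⟨y, rfl⟩ := Submodule.Quotient.mk_surjective _ z
  exact ⟨Submodule.Quotient.mk y, T.projX_mk l w y⟩

theorem resX_surjective (l w w' : ℕ) (hw : w ≤ w') : Function.Surjective (T.resX l w w' hw) :=
  fun z => by
  obtain ⟨y, rfl⟩ := Submodule.Quotient.mk_surjective _ z
  exact ⟨Submodule.Quotient.mk y, T.resX_mk l w w' hw y⟩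

theorem resX_projX (l w w' : ℕ) (hw : w ≤ w') (z : T.XMod (l + 1) w') :
    T.resX l w w' hw (T.projX l w' z) = T.projX l w (T.resX (l + 1) w w' hw z) := by
  obtain ⟨y, rfl⟩ := Submodule.Quotient.mk_surjective _ z
  rw [projX_mk, resX_mk, resX_mk, projX_mk]

theorem resX_trans (l w w' w'' : ℕ) (hw : w ≤ w') (hw' : w' ≤ w'') (z : T.XMod l w'') :
    T.resX l w w' hw (T.resX l w' w'' hw' z) = T.resX l w w'' (hw.trans hw') z := by
  obtain ⟨y, rfl⟩ := Submodule.Quotient.mk_surjective _ z
  rw [resX_mk, resX_mk, resX_mk]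

theorem gens_XMod (w : ℕ) :
    ∃ s : Fin (D₁ * Q ^ d) → T.XMod D w, Submodule.span B (Set.range s) = ⊤ :=
  T.span_of_surjective ((T.relR D w).mkQ.restrictScalars B) fun z =>
    Submodule.mkQ_surjective (T.relR D w) z

theorem gens_ker (l w : ℕ) :
    ∃ s : Fin (D₁ * Q ^ d) → LinearMap.ker (T.projX l w), Submodule.span B (Set.range s) = ⊤ :=
  T.span_of_surjective (T.toKer l w) (T.toKer_surjective l w)

include T in
/-- **Lattice data give a chain.** -/
theorem nonempty_chain (hK : 1 ≤ K) :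
    Nonempty (Chain B x h D Q K v D₁ (errC v D mB * E₀)) := ⟨{
  M := T.Mod
  almostFree := fun l _ => T.almostFree hK l
  gensM := fun l _ => T.span_of_surjective ((T.mkM l).restrictScalars B) (T.mkM_surjective l)
  lev := T.levM
  lev_ge := fun l w _ _ => T.fil_le_levM l w
  lev_anti := fun l w w' _ hw _ m ⟨y, hy, e⟩ => ⟨y, T.levR_anti hw hy, e⟩
  lev_small := fun l w hl hw => (T.length_lev_small hl hw).trans (Nat.cast_le.2
    (Nat.mul_le_mul_right _ (Nat.mul_le_mul (Nat.le_succ _) (by omega))))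
  X := fun l w => T.XMod l w
  zeroX := fun w _ => T.subsingleton_X_zero w
  proj := T.projX
  res := T.resX
  proj_surj := fun l w _ _ => T.projX_surjective l w
  res_surj := fun l w w' hw _ _ => T.resX_surjective l w w' hw
  res_proj := fun l w w' hw _ _ z => T.resX_projX l w w' hw z
  res_trans := fun l w w' w'' hw hw' _ _ z => T.resX_trans l w w' w'' hw hw' z
  gensX := fun w _ => T.gens_XMod w
  gensKer := fun l w _ _ => T.gens_ker l w
  toLev := T.toLevX fun hw => T.ker_toKer hw
  ofLev := T.ofLevX hK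
  opM := T.opMod
  opK := T.opKer
  opM_coker := fun l _ => (T.length_coker_opMod hK l).trans
    (Nat.cast_le.2 (Nat.mul_le_mul_right _ mB_slack_le))
  opK_coker := fun l w _ hw => (T.length_coker_opKer hw).trans
    (Nat.cast_le.2 (Nat.mul_le_mul_right _ mB_slack_le))
  to_of := fun l w _ hw m => T.to_ofX hK hw m
  of_to := fun l w _ hw z => T.of_toX hK hw z
  to_res := fun l w w' hw _ hw' z z' hz m hm => T.to_resX hw hw' z z' hz m hm
  of_res := fun l w w' hw _ hw' m => T.of_resX hK hw hw' m }⟩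

end Data

end Vale.Agent.P202.Mixed.Assemble
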