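import Vale.Agent.P202.Mixed.Defs
import Mathlib.RingTheory.TensorProduct.Basic

/-!
# P202 mixed characteristic: the lattice data behind a chain

`A` is a lattice ring over the base `P` of `B` with operators `z a`, `z a ^ Q = x a`, and weight
ideals `box`.  For each untilt `l` the module is a quotient of `(A ⊗_P B) ^ r` by `Ker l`; matrices
over `A` describe multiplication by the generators of `B`, and `s`, `Γ` are the slack.
-/

noncomputable section

namespace Vale.Agent.P202.Mixed.Assemble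

open IsLocalRing TensorProduct

universe u

/-- The lattice ring with `B` adjoined. -/
abbrev R2 (P A B : Type u) [CommRing P] [CommRing A] [CommRing B] [Algebra P A] [Algebra P B] :
    Type u :=
  A ⊗[P] B

variable {P A B : Type u} [CommRing P] [CommRing A] [CommRing B] [Algebra P A] [Algebra P B]
  {r : ℕ}

/-- The inclusion of the lattice. -/
def inA : A →+* R2 P A B := Algebra.TensorProduct.includeLeftRingHom

/-- The inclusion of `B`. -/
def inB : B →+* R2 P A B := (Algebra.TensorProduct.includeRight : B →ₐ[P] R2 P A B).toRingHom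

/-- The inclusion of lattice vectors. -/
def incV (a : Fin r → A) : Fin r → R2 P A B := fun i => inA (a i)

/-- A matrix over the lattice acting on vectors over `A ⊗ B`. -/
def matV (M : Matrix (Fin r) (Fin r) A) : (Fin r → R2 P A B) →ₗ[R2 P A B] (Fin r → R2 P A B) :=
  (M.map inA).mulVecLin

/-- The ideal of the operators. -/
def zId {d : ℕ} (z : Fin d → A) : Ideal A := Ideal.span (Set.range z)

/-- Vectors with entries in an ideal. -/
def vecIn (I : Ideal A) : Submodule A (Fin r → A) := Submodule.pi Set.univ fun _ => I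

/-- Equality of matrices modulo `p ^ n`. -/
def PEq (p n : ℕ) (M M' : Matrix (Fin r) (Fin r) A) : Prop :=
  ∀ i j, (p : A) ^ n ∣ M i j - M' i j

/-- The product of the first `l` matrices. -/
def prodΔ (Δ : ℕ → Matrix (Fin r) (Fin r) A) : ℕ → Matrix (Fin r) (Fin r) A
  | 0 => 1
  | l + 1 => prodΔ Δ l * Δ l

variable (P A B) [IsLocalRing B]

/-- The lattice data for `D` untilts at weight `K`, level `v` and error `E₀`. -/
structure Data (p : ℕ) {d : ℕ} (x : Fin d → B) (h : B) (D Q K v D₁ E₀ r mB mM : ℕ) where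
  z : Fin d → A
  xP : Fin d → P
  x_eq : ∀ a, algebraMap P B (xP a) = x a
  z_pow : ∀ a, z a ^ Q = algebraMap P A (xP a)
  hP : P
  h_eq : algebraMap P B hP = h
  cokilled : ∀ b : B, ∃ π : P, algebraMap P B π = h * b
  p_mem : (p : B) ∈ maximalIdeal B
  len_eq : ∀ (V : Type u) [AddCommGroup V] [Module B V] [Module P V] [IsScalarTower P B V],
    Module.length P V = Module.length B V
  gensA : ∃ (m : ℕ) (a : Fin m → A), Submodule.span P (Set.range a) = ⊤ ∧ m * r ≤ D₁ * Q ^ d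
  n : ℕ
  le_nK : v ≤ n * K
  box : ℕ → Ideal A
  box_anti : ∀ {w w'}, w ≤ w' → box w' ≤ box w
  box_zero : box 0 = ⊤
  box_mul : ∀ w w', box w * box w' ≤ box (w + w')
  p_box : (p : A) ∈ box K
  zId_box : ∀ b, zId z ^ b ≤ box b
  box_le : ∀ w, box w ≤ ⨆ (j : ℕ) (b : ℕ) (_ : w ≤ j * K + b), Ideal.span {(p : A) ^ j} * zId z ^ b
  Ker : ℕ → Submodule (R2 P A B) (Fin r → R2 P A B)
  e : A
  s : A
  e_dvd : e ∣ s
  Δ : ℕ → Matrix (Fin r) (Fin r) A
  Δ_box : ∀ l i j, Δ l i j ∈ box K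
  Δ_mod : ∀ l (a : Fin r → A), (e * (p : A)) • a - (Δ l).mulVec a ∈ vecIn (zId z ^ K)
  Δ_step : ∀ l w (a : Fin r → A), (Δ l).mulVec a ∈ vecIn (box (w + K)) →
    e ^ w • a ∈ vecIn (box w)
  Δ_ker : ∀ l a, incV ((Δ l).mulVec a) ∈ Ker l
  p_ker : ∀ l y, (p : R2 P A B) ^ n • y ∈ Ker l
  kernel : ∀ l a, incV a ∈ Ker l → ∃ b, s • a - (Δ l).mulVec b ∈ vecIn (Ideal.span {(p : A) ^ n})
  gfac : ∀ π : P, algebraMap P B π = 0 → ∀ a : Fin r → A, ∃ b,
    s • (algebraMap P A π • a) - (prodΔ Δ D).mulVec b ∈ vecIn (Ideal.span {(p : A) ^ n})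
  Δ_comm : ∀ l l', PEq p n (Δ l * Δ l') (Δ l' * Δ l)
  Γ : Matrix (Fin r) (Fin r) A
  Γ_comm : ∀ l, PEq p n (Γ * Δ l) (Δ l * Γ)
  Γ_ker : ∀ l, ∀ y ∈ Ker l, matV Γ y ∈ Ker l
  genB : Fin mB → B
  genB_span : Submodule.span P (Set.range genB) = ⊤
  MB : ℕ → Fin mB → Matrix (Fin r) (Fin r) A
  MB_comm : ∀ l i l', PEq p n (MB l i * Δ l') (Δ l' * MB l i)
  MB_eq : ∀ l i a, (inB (genB i) : R2 P A B) • matV Γ (incV a) - incV ((MB l i).mulVec a) ∈ Ker l
  genM : Fin mM → B
  genM_span : Ideal.span (Set.range genM) = maximalIdeal B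
  MM : ℕ → Fin mM → Matrix (Fin r) (Fin r) A
  MM_small : ∀ l i j j', MM l i j j' ∈ zId z ^ K
  MM_eq : ∀ l i a, (inB (genM i) : R2 P A B) • matV Γ (incV a) - incV ((MM l i).mulVec a) ∈ Ker l
  finite : Module.length P ((Fin r → A) ⧸
    (vecIn (zId z ^ v ⊔ Ideal.span {(p : A) ^ n})).restrictScalars P) ≠ ⊤
  upper : Module.length P ((Fin r → A) ⧸ (vecIn (box 1)).restrictScalars P) ≤ (D₁ : ℕ∞)
  lower : Module.length P ((Fin r → A) ⧸ (vecIn (box (v - K))).restrictScalars P) +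
      ((D₁ * monCount d v : ℕ) : ℕ∞) ≤
    Module.length P ((Fin r → A) ⧸ (vecIn (box v)).restrictScalars P)
  s_small : Module.length P ((Fin r → A) ⧸ (vecIn (Ideal.span {s}) ⊔
    vecIn (zId z ^ v ⊔ Ideal.span {(p : A) ^ n})).restrictScalars P) ≤ (E₀ : ℕ∞)
  Γ_small : Module.length P ((Fin r → A) ⧸
    (LinearMap.range Γ.mulVecLin ⊔ vecIn (box v)).restrictScalars P) ≤ (E₀ : ℕ∞)

end Vale.Agent.P202.Mixed.Assemble
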