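import Vale.Agent.P202.Mixed.Assemble.Modules

/-!
# P202 mixed characteristic: lengths of quotients of the lattice
-/

noncomputable section

namespace Vale.Agent.P202.Mixed.Assemble

open IsLocalRing TensorProduct

universe u

variable (P : Type u) {A : Type u} [CommRing P] [CommRing A] [Algebra P A] {r : ℕ}

/-- The length over the base of a quotient of lattice vectors. -/
def qlen (N : Submodule A (Fin r → A)) : ℕ∞ :=
  Module.length P ((Fin r → A) ⧸ N.restrictScalars P)

variable {P}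

theorem qlen_anti {N N' : Submodule A (Fin r → A)} (h : N ≤ N') : qlen P N' ≤ qlen P N :=
  Module.length_le_of_surjective (Submodule.factor (show N.restrictScalars P ≤ N'.restrictScalars P
    from h)) (Submodule.factor_surjective _)

theorem length_quot_eq {S : Type*} [CommRing S] {V : Type*} [AddCommGroup V] [Module S V]
    (X : Submodule S V) :
    Module.length S V = Module.length S X + Module.length S (V ⧸ X) :=
  Module.length_eq_add_of_exact X.subtype X.mkQ (Submodule.subtype_injective _)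
    (Submodule.mkQ_surjective _) (LinearMap.exact_subtype_mkQ X)

/-- The image of a map bounds what it adds to a quotient. -/
theorem qlen_le_range (f : (Fin r → A) →ₗ[A] (Fin r → A)) {N N' : Submodule A (Fin r → A)}
    (h : N' ≤ N.comap f) : qlen P N ≤ qlen P (N ⊔ LinearMap.range f) + qlen P N' := by
  let g : ((Fin r → A) ⧸ N'.restrictScalars P) →ₗ[P] (Fin r → A) ⧸ N.restrictScalars P :=
    Submodule.mapQ _ _ (f.restrictScalars P) h
  rw [qlen, length_quot_eq (LinearMap.range g), add_comm]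
  refine add_le_add ?_ (Module.length_le_of_surjective g.rangeRestrict g.surjective_rangeRestrict)
  refine Module.length_le_of_surjective
    ((N ⊔ LinearMap.range f).restrictScalars P |>.liftQ ((LinearMap.range g).mkQ.comp
      (N.restrictScalars P).mkQ) (fun y hy => ?_)) fun z => ?_
  · obtain ⟨a, ha, _, ⟨b, rfl⟩, rfl⟩ := Submodule.mem_sup.1 hy
    rw [LinearMap.mem_ker, LinearMap.comp_apply, map_add]
    have h0 : (N.restrictScalars P).mkQ a = 0 := (Submodule.Quotient.mk_eq_zero _).2 ha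
    rw [h0, zero_add, Submodule.mkQ_apply]
    exact (Submodule.Quotient.mk_eq_zero _).2 ⟨Submodule.Quotient.mk b, rfl⟩
  · obtain ⟨z, rfl⟩ := Submodule.mkQ_surjective _ z
    obtain ⟨y, rfl⟩ := Submodule.mkQ_surjective _ z
    exact ⟨Submodule.Quotient.mk y, rfl⟩

/-- Composites. -/
theorem qlen_comp (f g : (Fin r → A) →ₗ[A] (Fin r → A)) {N : Submodule A (Fin r → A)}
    (hf : N ≤ N.comap f) :
    qlen P (N ⊔ LinearMap.range (f.comp g)) ≤
      qlen P (N ⊔ LinearMap.range f) + qlen P (N ⊔ LinearMap.range g) := by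
  have h : N ⊔ LinearMap.range g ≤ (N ⊔ LinearMap.range (f.comp g)).comap f := by
    refine sup_le (fun a ha => Submodule.mem_sup_left (hf ha)) ?_
    rintro _ ⟨b, rfl⟩
    exact Submodule.mem_sup_right ⟨b, rfl⟩
  refine (qlen_le_range f h).trans (add_le_add (le_of_eq ?_) le_rfl)
  rw [sup_assoc, sup_eq_right.2 (LinearMap.range_comp_le_range g f)]

theorem qlen_top : qlen P (⊤ : Submodule A (Fin r → A)) = 0 := by
  have : Subsingleton ((Fin r → A) ⧸ (⊤ : Submodule A (Fin r → A)).restrictScalars P) :=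
    Submodule.Quotient.subsingleton_iff.2 rfl
  exact Module.length_eq_zero

theorem qlen_pow (f : (Fin r → A) →ₗ[A] (Fin r → A)) {N : Submodule A (Fin r → A)}
    (hf : N ≤ N.comap f) : ∀ k : ℕ,
    qlen P (N ⊔ LinearMap.range (f ^ k)) ≤ (k : ℕ∞) * qlen P (N ⊔ LinearMap.range f)
  | 0 => by
    rw [pow_zero, LinearMap.range_eq_top.2 (fun a => ⟨a, rfl⟩), sup_top_eq, qlen_top]
    exact zero_le
  | k + 1 => by
    rw [pow_succ', Nat.cast_succ, add_mul, one_mul, add_comm ((k : ℕ∞) * _)]
    exact (qlen_comp f (f ^ k) hf).trans (add_le_add le_rfl (qlen_pow f hf k))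

/-- A module generated by images of lattice vectors killing a submodule. -/
theorem length_le_gen {W : Type u} [AddCommGroup W] [Module P W] {ι : Type} [Fintype ι]
    (g : ι → (Fin r → A) →ₗ[P] W) (N : Submodule A (Fin r → A))
    (hN : ∀ i, N.restrictScalars P ≤ LinearMap.ker (g i)) (hg : ⨆ i, LinearMap.range (g i) = ⊤) :
    Module.length P W ≤ (Fintype.card ι : ℕ∞) * qlen P N := by
  classical
  let G := LinearMap.lsum P (fun _ : ι => (Fin r → A) ⧸ N.restrictScalars P) P
    fun i => (N.restrictScalars P).liftQ (g i) (hN i)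
  refine (Module.length_le_of_surjective G (LinearMap.range_eq_top.1 ?_)).trans (le_of_eq ?_)
  · rw [eq_top_iff, ← hg, iSup_le_iff]
    rintro i _ ⟨a, rfl⟩
    refine ⟨Pi.single i (Submodule.Quotient.mk a), ?_⟩
    simp [G, LinearMap.lsum_apply, Pi.single_apply, apply_ite]
  · rw [Module.length_pi_of_fintype]
    simp [qlen]

theorem qlen_ne_top {N N' : Submodule A (Fin r → A)} (h : N ≤ N') (hN : qlen P N ≠ ⊤) :
    qlen P N' ≠ ⊤ := ne_top_of_le_ne_top hN (qlen_anti h)

variable {B : Type u} [CommRing B] [Algebra P B] [IsLocalRing B]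
  {p d D Q K v D₁ E₀ mB mM : ℕ} {x : Fin d → B} {h : B}

namespace Data

variable (T : Data P A B p x h D Q K v D₁ E₀ r mB mM)

/-- Multiplication by a scalar on lattice vectors. -/
abbrev sc (c : A) : (Fin r → A) →ₗ[A] (Fin r → A) := c • LinearMap.id

theorem smul_le_comap (c : A) (N : Submodule A (Fin r → A)) : N ≤ N.comap (sc c) :=
  fun _ ha => N.smul_mem c ha

theorem sc_pow (c : A) : ∀ k : ℕ, (sc c : (Fin r → A) →ₗ[A] _) ^ k = sc (c ^ k)
  | 0 => by ext; simp [sc]
  | k + 1 => by rw [pow_succ', sc_pow c k]; ext; simp [sc]; ring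

/-- The relations every untilt kills. -/
def Iv : Submodule A (Fin r → A) := vecIn (zId T.z ^ v ⊔ Ideal.span {(p : A) ^ T.n})

/-- The relations of the untilt `l`. -/
def W0 (l : ℕ) : Submodule A (Fin r → A) := LinearMap.range (T.Δ l).mulVecLin ⊔ T.Iv

theorem Iv_le_box : T.Iv ≤ vecIn (T.box v) :=
  vecIn_mono (sup_le (T.zId_box v) (T.span_p_le le_rfl))

theorem qlen_Iv : qlen P T.Iv ≠ ⊤ := T.finite

theorem qlen_W0_ne_top (l : ℕ) : qlen P (T.W0 l) ≠ ⊤ := qlen_ne_top le_sup_right T.qlen_Iv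

theorem qlen_s : qlen P (T.Iv ⊔ LinearMap.range (sc T.s)) ≤ (E₀ : ℕ∞) := by
  refine le_trans (qlen_anti (sup_le ?_ le_sup_left)) T.s_small
  intro a ha
  refine Submodule.mem_sup_right ?_
  choose c hc using fun i => Ideal.mem_span_singleton'.1 (ha i trivial)
  exact ⟨c, funext fun i => by simpa [sc, mul_comm] using hc i⟩

theorem qlen_e : qlen P (T.Iv ⊔ LinearMap.range (sc T.e)) ≤ (E₀ : ℕ∞) := by
  refine le_trans (qlen_anti (sup_le le_sup_left ?_)) T.qlen_s
  rintro _ ⟨a, rfl⟩
  obtain ⟨c, hc⟩ := T.e_dvd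
  exact Submodule.mem_sup_right ⟨c • a, by simp [sc, smul_smul, hc, mul_comm]⟩

theorem qlen_s_pow {N : Submodule A (Fin r → A)} (hN : T.Iv ≤ N) (k : ℕ) :
    qlen P (N ⊔ LinearMap.range (sc (T.s ^ k))) ≤ ((k * E₀ : ℕ) : ℕ∞) := by
  refine (qlen_anti (sup_le_sup_right hN _)).trans ?_
  rw [← sc_pow, Nat.cast_mul]
  exact (qlen_pow _ (smul_le_comap _ _) k).trans (by gcongr; exact T.qlen_s)

theorem qlen_e_pow {N : Submodule A (Fin r → A)} (hN : T.Iv ≤ N) (k : ℕ) :
    qlen P (N ⊔ LinearMap.range (sc (T.e ^ k))) ≤ ((k * E₀ : ℕ) : ℕ∞) := by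
  refine (qlen_anti (sup_le_sup_right hN _)).trans ?_
  rw [← sc_pow, Nat.cast_mul]
  exact (qlen_pow _ (smul_le_comap _ _) k).trans (by gcongr; exact T.qlen_e)

theorem mulVec_sub_mem_mul (l : ℕ) {J : Ideal A} {a : Fin r → A} (ha : a ∈ vecIn J) :
    (T.e * (p : A)) • a - (T.Δ l).mulVec a ∈ vecIn (zId T.z ^ K * J) := by
  classical
  have hM : ∀ i j, ((T.e * (p : A)) • (1 : Matrix (Fin r) (Fin r) A) - T.Δ l) i j ∈ zId T.z ^ K := by
    intro i j
    have := mem_vecIn.1 (T.Δ_mod l (Pi.single j 1)) i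
    simpa [Matrix.mulVec_single, Matrix.one_apply, Pi.single_apply] using this
  have := mulVec_mem_mul hM ha
  rwa [Matrix.sub_mulVec, Matrix.smul_mulVec, Matrix.one_mulVec] at this

/-- A prime power times a power of the operators, after a power of `e`. -/
theorem e_pow_smul (l b : ℕ) : ∀ (j : ℕ) {a : Fin r → A}, a ∈ vecIn (zId T.z ^ b) →
    (T.e * (p : A)) ^ j • a ∈
      LinearMap.range (T.Δ l).mulVecLin ⊔ vecIn (zId T.z ^ (j * K + b))
  | 0, a, ha => by rw [pow_zero, one_smul, Nat.zero_mul, Nat.zero_add]; exact Submodule.mem_sup_right ha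
  | j + 1, a, ha => by
    obtain ⟨q, ⟨c, rfl⟩, y, hy, he⟩ := Submodule.mem_sup.1 (e_pow_smul l b j ha)
    rw [pow_succ', mul_smul, ← he, smul_add]
    refine add_mem (Submodule.smul_mem _ _ (Submodule.mem_sup_left ⟨c, rfl⟩)) ?_
    have h1 := T.mulVec_sub_mem_mul l hy
    rw [← pow_add, show K + (j * K + b) = (j + 1) * K + b by rw [Nat.succ_mul]; omega] at h1
    have h2 := add_mem (Submodule.mem_sup_right h1 :
      _ ∈ LinearMap.range (T.Δ l).mulVecLin ⊔ vecIn (zId T.z ^ ((j + 1) * K + b)))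
      (Submodule.mem_sup_left ⟨y, rfl⟩)
    rwa [Matrix.mulVecLin_apply, sub_add_cancel] at h2

/-- A power of `e` moves high weight into the relations of an untilt. -/
theorem box_smul_le (hK : 1 ≤ K) (l : ℕ) :
    vecIn (T.box v) ≤ (T.W0 l).comap (sc (T.e ^ v)) := by
  classical
  intro a ha
  rw [← Finset.univ_sum_single a]
  refine Submodule.sum_mem _ fun i _ => ?_
  have hc := T.box_le v (ha i trivial)
  generalize a i = c at hc ⊢
  induction hc using Submodule.iSup_induction' with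
  | zero => rw [Pi.single_zero]; exact zero_mem _
  | add y y' _ _ hy hy' => rw [Pi.single_add]; exact add_mem hy hy'
  | mem j c hc =>
    induction hc using Submodule.iSup_induction' with
    | zero => rw [Pi.single_zero]; exact zero_mem _
    | add y y' _ _ hy hy' => rw [Pi.single_add]; exact add_mem hy hy'
    | mem b c hc =>
      induction hc using Submodule.iSup_induction' with
      | zero => rw [Pi.single_zero]; exact zero_mem _
      | add y y' _ _ hy hy' => rw [Pi.single_add]; exact add_mem hy hy'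
      | mem hv c hc =>
        obtain ⟨z, hz, rfl⟩ := Ideal.mem_span_singleton_mul.1 hc
        set j' := min j v with hj'
        obtain ⟨k, hk⟩ := Nat.exists_eq_add_of_le (min_le_left j v)
        obtain ⟨k', hk'⟩ := Nat.exists_eq_add_of_le (min_le_right j v)
        have h1 := T.e_pow_smul l b j' (a := Pi.single i z) (mem_vecIn.2 fun i' => by
          rcases eq_or_ne i' i with rfl | hne <;> simp [*])
        have hb : v ≤ j' * K + b := by
          rcases le_total j v with h' | h'
          · rw [hj', min_eq_left h']; exact hv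
          · rw [hj', min_eq_right h']
            exact le_add_of_le_left (le_mul_of_one_le_right (Nat.zero_le v) hK)
        have h2 : (T.e * (p : A)) ^ j' • Pi.single i z ∈ T.W0 l := by
          refine (show _ ⊔ _ ≤ T.W0 l from sup_le_sup_left ?_ _) h1
          exact vecIn_mono ((Ideal.pow_le_pow_right hb).trans le_sup_left)
        rw [Submodule.mem_comap, sc, LinearMap.smul_apply, LinearMap.id_apply,
          ← smul_eq_mul ((p : A) ^ j), Pi.single_smul', smul_smul]
        have : T.e ^ v * (p : A) ^ j = (T.e ^ k' * (p : A) ^ k) * (T.e * (p : A)) ^ j' := by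
          have e1 : T.e ^ v = T.e ^ j' * T.e ^ k' := by rw [← pow_add]; exact congrArg _ hk'
          have e2 : (p : A) ^ j = (p : A) ^ j' * (p : A) ^ k := by rw [← pow_add]; exact congrArg _ hk
          rw [e1, e2]
          ring
        rw [this, mul_smul]
        exact Submodule.smul_mem _ _ h2

theorem mulVec_W0 {M : Matrix (Fin r) (Fin r) A}
    (hM : ∀ l, PEq p T.n (M * T.Δ l) (T.Δ l * M)) (l : ℕ) :
    T.W0 l ≤ (T.W0 l).comap M.mulVecLin := by
  refine sup_le ?_ (fun a ha => Submodule.mem_sup_right (mulVec_mem_vecIn _ ha))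
  rintro _ ⟨b, rfl⟩
  have h1 : (M * T.Δ l).mulVec b - (T.Δ l * M).mulVec b ∈ T.W0 l :=
    Submodule.mem_sup_right (vecIn_mono le_sup_right ((hM l).mulVec b))
  have h3 : (T.Δ l).mulVec (M.mulVec b) ∈ T.W0 l :=
    Submodule.mem_sup_left (LinearMap.mem_range_self (T.Δ l).mulVecLin (M.mulVec b))
  have h2 := add_mem h1 h3
  rw [Matrix.mulVec_mulVec, sub_add_cancel] at h2
  rwa [Submodule.mem_comap, Matrix.mulVecLin_apply, Matrix.mulVecLin_apply, Matrix.mulVec_mulVec]

theorem mulVec_le_comap (I : Ideal A) (M : Matrix (Fin r) (Fin r) A) :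
    vecIn I ≤ (vecIn I).comap M.mulVecLin := fun _ ha => mulVec_mem_vecIn M ha

/-- The cokernel of `Γ` on an untilt. -/
theorem qlen_W0_Γ (hK : 1 ≤ K) (l : ℕ) :
    qlen P (T.W0 l ⊔ LinearMap.range T.Γ.mulVecLin) ≤ (((v + 1) * E₀ : ℕ) : ℕ∞) := by
  refine (qlen_le_range (sc (T.e ^ v)) (N := T.W0 l ⊔ LinearMap.range T.Γ.mulVecLin)
    (N' := vecIn (T.box v) ⊔ LinearMap.range T.Γ.mulVecLin)
    (sup_le ((T.box_smul_le hK l).trans (Submodule.comap_mono le_sup_left)) ?_)).trans ?_
  · rintro _ ⟨a, rfl⟩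
    refine Submodule.mem_comap.2 ?_
    refine Submodule.mem_sup_right ?_
    exact Submodule.smul_mem _ _ (LinearMap.mem_range_self T.Γ.mulVecLin a)
  · rw [Nat.succ_mul, Nat.cast_add]
    refine add_le_add (T.qlen_e_pow (le_sup_right.trans le_sup_left) v) ?_
    rw [sup_comm]
    exact T.Γ_small

theorem slack_mulVecLin : T.slack.mulVecLin =
    (sc T.s).comp (T.Γ.mulVecLin ^ (2 * v + 1)) := by
  refine LinearMap.ext fun a => ?_
  have : ∀ k, (T.Γ.mulVecLin ^ k) a = (T.Γ ^ k).mulVec a := by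
    intro k
    induction k with
    | zero => simp
    | succ k ih => rw [pow_succ', Module.End.mul_apply, ih, pow_succ', ← Matrix.mulVec_mulVec]; rfl
  simp [sc, slack, this]

/-- The constant of the slack. -/
def cslack (v : ℕ) : ℕ := (2 * v + 1) * (v + 1) + 1

theorem qlen_slack {N : Submodule A (Fin r → A)} (hI : T.Iv ≤ N) (c : ℕ)
    (hΓ : qlen P (N ⊔ LinearMap.range T.Γ.mulVecLin) ≤ ((c * E₀ : ℕ) : ℕ∞))
    (hst : N ≤ N.comap T.Γ.mulVecLin) :
    qlen P (N ⊔ LinearMap.range T.slack.mulVecLin) ≤ (((1 + (2 * v + 1) * c) * E₀ : ℕ) : ℕ∞) := by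
  rw [T.slack_mulVecLin, Nat.add_mul, Nat.one_mul, Nat.cast_add, Nat.mul_assoc, Nat.cast_mul (2 * v + 1)]
  refine (qlen_comp _ _ (smul_le_comap _ _)).trans (add_le_add ?_ ?_)
  · exact (qlen_anti (sup_le_sup_right hI _)).trans T.qlen_s
  · exact (qlen_pow _ hst _).trans (by gcongr)

theorem qlen_W0_slack (hK : 1 ≤ K) (l : ℕ) :
    qlen P (T.W0 l ⊔ LinearMap.range T.slack.mulVecLin) ≤ ((cslack v * E₀ : ℕ) : ℕ∞) := by
  rw [cslack, add_comm ((2 * v + 1) * (v + 1))]
  exact T.qlen_slack le_sup_right (v + 1) (T.qlen_W0_Γ hK l) (T.mulVec_W0 T.Γ_comm l)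

theorem qlen_box_slack :
    qlen P (vecIn (T.box v) ⊔ LinearMap.range T.slack.mulVecLin) ≤
      ((cslack v * E₀ : ℕ) : ℕ∞) := by
  refine (T.qlen_slack T.Iv_le_box 1 ?_ (mulVec_le_comap _ _)).trans ?_
  · rw [Nat.one_mul, sup_comm]; exact T.Γ_small
  · refine Nat.cast_le.2 (Nat.mul_le_mul_right _ ?_)
    rw [cslack, Nat.mul_one]
    nlinarith

/-- The first weight. -/
theorem qlen_one (hK : 1 ≤ K) (l : ℕ) :
    qlen P (T.W0 l ⊔ vecIn (zId T.z)) ≤ ((D₁ + E₀ : ℕ) : ℕ∞) := by
  classical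
  have hsub : vecIn (T.box 1) ≤ (T.W0 l ⊔ vecIn (zId T.z)).comap (sc T.e) := by
    intro a ha
    rw [Submodule.mem_comap, sc, LinearMap.smul_apply, LinearMap.id_apply]
    have hle : T.box 1 ≤ Ideal.span {(p : A)} ⊔ zId T.z := by
      refine (T.box_le 1).trans (iSup_le fun j => iSup_le fun b => iSup_le fun hjb => ?_)
      rcases Nat.eq_zero_or_pos j with rfl | hj
      · exact Ideal.mul_le_right.trans ((Ideal.pow_le_self (n := b) (by rintro rfl; simp at hjb)).trans le_sup_right)
      · exact Ideal.mul_le_left.trans (le_sup_of_le_left ((Ideal.span_singleton_le_iff_mem _).2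
          (Ideal.pow_mem_of_mem _ (Ideal.mem_span_singleton_self _) j hj)))
    choose c hc z hz e using fun i => Submodule.mem_sup.1 (hle (ha i trivial))
    choose c' hc' using fun i => Ideal.mem_span_singleton'.1 (hc i)
    have ha' : a = (p : A) • c' + z := funext fun i => by
      rw [← e i, ← hc' i]; simp [mul_comm]
    rw [ha', smul_add, smul_smul]
    refine add_mem ?_ (Submodule.mem_sup_right (mem_vecIn.2 fun i => Ideal.mul_mem_left _ _ (hz i)))
    have h1 := T.Δ_mod l c'
    have h2 := add_mem (Submodule.mem_sup_right (vecIn_mono (Ideal.pow_le_self (by omega)) h1) :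
      _ ∈ T.W0 l ⊔ vecIn (zId T.z)) (Submodule.mem_sup_left (Submodule.mem_sup_left ⟨c', rfl⟩))
    rwa [Matrix.mulVecLin_apply, sub_add_cancel] at h2
  refine (qlen_le_range (sc T.e) hsub).trans ?_
  rw [Nat.cast_add, add_comm (D₁ : ℕ∞)]
  refine add_le_add ?_ T.upper
  exact (qlen_anti (sup_le_sup_right (le_sup_right.trans le_sup_left) _)).trans T.qlen_e

/-- The count of the box. -/
theorem le_qlen_W0 (l : ℕ) : ((D₁ * monCount d v : ℕ) : ℕ∞) ≤ qlen P (T.W0 l) := by
  have h1 : qlen P (vecIn (T.box v) : Submodule A (Fin r → A)) ≤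
      qlen P (vecIn (T.box v) ⊔ LinearMap.range (T.Δ l).mulVecLin) +
        qlen P (vecIn (T.box (v - K)) : Submodule A (Fin r → A)) := by
    refine qlen_le_range _ fun a ha => ?_
    have := mulVec_mem_mul (T.Δ_box l) ha
    exact vecIn_mono ((T.box_mul _ _).trans (T.box_anti (by omega))) this
  have h2 : qlen P (vecIn (T.box v) ⊔ LinearMap.range (T.Δ l).mulVecLin) ≤ qlen P (T.W0 l) :=
    qlen_anti (sup_le (le_sup_of_le_right le_rfl) (T.Iv_le_box.trans le_sup_left))
  have h3 : qlen P (vecIn (T.box (v - K)) : Submodule A (Fin r → A)) ≠ ⊤ :=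
    qlen_ne_top (T.Iv_le_box.trans (vecIn_mono (T.box_anti (Nat.sub_le v K)))) T.qlen_Iv
  have h4 := le_trans T.lower (h1.trans (add_le_add h2 le_rfl))
  rw [add_comm (qlen P (T.W0 l))] at h4
  exact (ENat.add_le_add_iff_left h3).1 h4

end Data

end Vale.Agent.P202.Mixed.Assemble
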