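import Vale.Agent.P202.Mixed.Assemble.Weight

/-!
# P202 mixed characteristic: the modules and maps of the chain of lattice data
-/

noncomputable section

namespace Vale.Agent.P202.Mixed.Assemble

open IsLocalRing TensorProduct

universe u

variable {P A B : Type u} [CommRing P] [CommRing A] [CommRing B] [Algebra P A] [Algebra P B]
  {r : ℕ}

/-- `B` acts on `A ⊗ B` through the right factor. -/
instance algB : Algebra B (R2 P A B) := inB.toAlgebra

instance towerPB : IsScalarTower P B (R2 P A B) :=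
  IsScalarTower.of_algebraMap_eq fun π => by
    change algebraMap P (R2 P A B) π = inB (algebraMap P B π)
    rw [← inA_algebraMap]
    rfl

theorem smul_B (b : B) (y : Fin r → R2 P A B) : b • y = (inB b : R2 P A B) • y := rfl

/-- A map factors through a surjection killing less. -/
def descend {S : Type*} [CommRing S] {V W U : Type*} [AddCommGroup V] [Module S V] [AddCommGroup W]
    [Module S W] [AddCommGroup U] [Module S U] (π : V →ₗ[S] W) (hπ : Function.Surjective π)
    (g : V →ₗ[S] U) (hk : LinearMap.ker π ≤ LinearMap.ker g) : W →ₗ[S] U :=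
  ((LinearMap.ker π).liftQ g hk).comp (π.quotKerEquivOfSurjective hπ).symm.toLinearMap

theorem descend_apply {S : Type*} [CommRing S] {V W U : Type*} [AddCommGroup V] [Module S V]
    [AddCommGroup W] [Module S W] [AddCommGroup U] [Module S U] (π : V →ₗ[S] W)
    (hπ : Function.Surjective π) (g : V →ₗ[S] U) (hk : LinearMap.ker π ≤ LinearMap.ker g) (v : V) :
    descend π hπ g hk (π v) = g v := by
  have : (π.quotKerEquivOfSurjective hπ).symm (π v) = Submodule.Quotient.mk v :=
    (π.quotKerEquivOfSurjective hπ).injective (by rw [LinearEquiv.apply_symm_apply]; rfl)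
  simp [descend, this]

variable [IsLocalRing B] {p d D Q K v D₁ E₀ mB mM : ℕ} {x : Fin d → B} {h : B}

namespace Data

variable (T : Data P A B p x h D Q K v D₁ E₀ r mB mM)

/-- The relations of the module of the untilt `l`. -/
def MKer (l : ℕ) : Submodule (R2 P A B) (Fin r → (R2 P A B)) := T.Ker l ⊔ sp (vecIn (zId T.z ^ v))

/-- The almost free module of the untilt `l`. -/
def Mod (l : ℕ) : Type u := (Fin r → (R2 P A B)) ⧸ T.MKer l

instance (l : ℕ) : AddCommGroup (T.Mod l) :=
  inferInstanceAs (AddCommGroup ((Fin r → (R2 P A B)) ⧸ T.MKer l))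

instance (l : ℕ) : Module (R2 P A B) (T.Mod l) := inferInstanceAs (Module (R2 P A B) ((Fin r → (R2 P A B)) ⧸ T.MKer l))

instance (l : ℕ) : Module B (T.Mod l) := inferInstanceAs (Module B ((Fin r → (R2 P A B)) ⧸ T.MKer l))

instance (l : ℕ) : Module P (T.Mod l) := inferInstanceAs (Module P ((Fin r → (R2 P A B)) ⧸ T.MKer l))

instance (l : ℕ) : IsScalarTower P B (T.Mod l) :=
  inferInstanceAs (IsScalarTower P B ((Fin r → (R2 P A B)) ⧸ T.MKer l))

instance (l : ℕ) : IsScalarTower B (R2 P A B) (T.Mod l) :=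
  inferInstanceAs (IsScalarTower B (R2 P A B) ((Fin r → (R2 P A B)) ⧸ T.MKer l))

instance (l : ℕ) : Module (Rz B d) (T.Mod l) := Module.compHom (T.Mod l) T.zHom

theorem rz_smul (l : ℕ) (w : Rz B d) (m : T.Mod l) : w • m = T.zHom w • m := rfl

instance (l : ℕ) : IsScalarTower B (Rz B d) (T.Mod l) :=
  IsScalarTower.of_algebraMap_smul fun b m => by
    rw [MvPolynomial.algebraMap_eq, rz_smul, zHom_C]
    exact algebraMap_smul (R2 P A B) b m

/-- The quotient map. -/
def mkM (l : ℕ) : (Fin r → (R2 P A B)) →ₗ[(R2 P A B)] T.Mod l := (T.MKer l).mkQ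

theorem mkM_surjective (l : ℕ) : Function.Surjective (T.mkM l) := Submodule.mkQ_surjective _

theorem mkM_eq_zero {l : ℕ} {y : Fin r → (R2 P A B)} : T.mkM l y = 0 ↔ y ∈ T.MKer l :=
  Submodule.Quotient.mk_eq_zero _

/-- The weight filtration of the module is the image of that of vectors. -/
theorem fil_eq (l u : ℕ) {m : T.Mod l} :
    m ∈ fil B (d := d) (T.Mod l) K (u : ℤ) ↔ ∃ y ∈ T.filR u, T.mkM l y = m := by
  constructor
  · intro hm
    refine Submodule.smul_induction_on hm (fun w hw m _ => ?_) ?_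
    · obtain ⟨y, rfl⟩ := T.mkM_surjective l m
      exact ⟨T.zHom w • y, Submodule.smul_mem_smul (Ideal.mem_map_of_mem _ hw) Submodule.mem_top,
        map_smul _ _ _⟩
    · rintro _ _ ⟨y, hy, rfl⟩ ⟨y', hy', rfl⟩
      exact ⟨y + y', add_mem hy hy', map_add _ _ _⟩
  · rintro ⟨y, hy, rfl⟩
    refine Submodule.smul_induction_on hy (fun q hq y _ => ?_)
      (fun a b ha hb => by rw [map_add]; exact add_mem ha hb)
    rw [map_smul]
    generalize T.mkM l y = m
    change q ∈ (wIdeal B d K (u : ℤ)).map T.zHom at hq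
    induction hq using Submodule.span_induction generalizing m with
    | mem c hc =>
      obtain ⟨w, hw, rfl⟩ := hc
      exact Submodule.smul_mem_smul hw Submodule.mem_top
    | zero => rw [zero_smul]; exact zero_mem _
    | add c c' _ _ hc hc' => rw [add_smul]; exact add_mem (hc m) (hc' m)
    | smul k c _ hc => rw [smul_eq_mul, mul_comm, mul_smul]; exact hc _

/-- The levels of the comparison. -/
def levM (l w : ℕ) : Submodule (Rz B d) (T.Mod l) where
  carrier := {m | m ∈ (T.levR l w).map (T.mkM l)}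
  zero_mem' := ((T.levR l w).map (T.mkM l)).zero_mem
  add_mem' := ((T.levR l w).map (T.mkM l)).add_mem
  smul_mem' w' _ hm := ((T.levR l w).map (T.mkM l)).smul_mem (T.zHom w') hm

theorem filR_anti {u u' : ℕ} (h : u ≤ u') : T.filR u' ≤ T.filR u := by
  refine Submodule.smul_mono_left (Ideal.map_mono ?_)
  exact iSup_mono fun a => iSup_mono fun b => iSup_mono' fun hab =>
    ⟨le_trans (by exact_mod_cast h) hab, le_rfl⟩

theorem Kn_anti {l w w' : ℕ} (h : w ≤ w') : T.Kn l w' ≤ T.Kn l w :=
  Submodule.comap_mono (sup_le_sup_right (sup_le_sup_right (vecIn_mono (T.box_anti h)) _) _)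

theorem levR_anti {l w w' : ℕ} (h : w ≤ w') : T.levR l w' ≤ T.levR l w :=
  sup_le_sup (sup_le_sup_left (T.filR_anti (by omega)) _) (sp_mono (T.Kn_anti h))

theorem MKer_le_levR {l w : ℕ} (hw : w ≤ v) : T.MKer l ≤ T.levR l w :=
  sup_le (le_sup_left.trans le_sup_left)
    (((T.sp_zId_le_filR v).trans (T.filR_anti (by omega))).trans (le_sup_right.trans le_sup_left))

theorem mkM_mem_levM {l w : ℕ} (hw : w ≤ v) {y : Fin r → (R2 P A B)} :
    T.mkM l y ∈ T.levM l w ↔ y ∈ T.levR l w := by
  refine ⟨?_, fun hy => ⟨y, hy, rfl⟩⟩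
  rintro ⟨y', hy', he⟩
  have h1 : y' - y ∈ T.MKer l := T.mkM_eq_zero.1 (by rw [map_sub, he, sub_self])
  simpa using sub_mem hy' (T.MKer_le_levR hw h1)

theorem fil_le_levM (l w : ℕ) :
    fil B (d := d) (T.Mod l) K ((w - l * K : ℕ) : ℤ) ≤ T.levM l w := fun m hm => by
  obtain ⟨y, hy, rfl⟩ := (T.fil_eq l _).1 hm
  exact ⟨y, Submodule.mem_sup_left (Submodule.mem_sup_right hy), rfl⟩

/-- Matrices congruent modulo `p ^ n` agree modulo high weight. -/
theorem matV_congr {w : ℕ} (hw : w ≤ v) {M N : Matrix (Fin r) (Fin r) A} (hMN : PEq p T.n M N)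
    (y : Fin r → (R2 P A B)) : matV M y - matV N y ∈ sp (vecIn (T.box w)) := by
  refine vec_induction (motive := fun y => matV M y - matV N y ∈ sp (vecIn (T.box w))) (by simp)
    (fun b a => ?_) (fun y y' hy hy' => by
      rw [map_add, map_add, add_sub_add_comm]; exact add_mem hy hy') y
  rw [map_smul, map_smul, ← smul_sub, ← incV_mulVec, ← incV_mulVec, ← incV_sub]
  exact Submodule.smul_mem _ _ (incV_mem_sp (vecIn_mono (T.span_p_le hw) (hMN.mulVec a)))

theorem relR_le_succ (l w : ℕ) : T.relR (l + 1) w ≤ T.relR l w :=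
  sup_le le_sup_left (le_sup_of_le_right (by
    rintro _ ⟨y, rfl⟩
    exact ⟨matV (T.Δ l) y, (matV_mul _ _ _).symm⟩))

theorem relR_anti (l : ℕ) {w w' : ℕ} (h : w ≤ w') : T.relR l w' ≤ T.relR l w :=
  sup_le_sup_right (sp_mono (vecIn_mono (T.box_anti h))) _

theorem slack_relR {l w : ℕ} (hw : w ≤ v) : T.relR l w ≤ (T.relR l w).comap (matV T.slack) := by
  refine sup_le (fun y hy => Submodule.mem_sup_left
    (matV_mem_sp (fun a ha => mulVec_mem_vecIn _ ha) hy)) ?_
  rintro _ ⟨y, rfl⟩
  have h1 := T.matV_congr hw (PEq.prodΔ T.slack_comm l) y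
  rw [matV_mul, matV_mul] at h1
  have h2 := add_mem (Submodule.mem_sup_left h1 : _ ∈ T.relR l w)
    (Submodule.mem_sup_right ⟨matV T.slack y, rfl⟩)
  rwa [sub_add_cancel] at h2

/-- The tower of the lattice. -/
abbrev XMod (l w : ℕ) : Type u := (Fin r → (R2 P A B)) ⧸ T.relR l w

/-- The projections of the tower. -/
def projX (l w : ℕ) : T.XMod (l + 1) w →ₗ[B] T.XMod l w :=
  (Submodule.factor (T.relR_le_succ l w)).restrictScalars B

/-- The transitions of the tower. -/
def resX (l w w' : ℕ) (hw : w ≤ w') : T.XMod l w' →ₗ[B] T.XMod l w :=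
  (Submodule.factor (T.relR_anti l hw)).restrictScalars B

/-- The parametrisation of the kernel of a projection. -/
def toKer (l w : ℕ) : (Fin r → (R2 P A B)) →ₗ[B] LinearMap.ker (T.projX l w) :=
  LinearMap.codRestrict _ (((T.relR (l + 1) w).mkQ.comp (matV (prodΔ T.Δ l))).restrictScalars B)
    fun y => by
      refine (Submodule.Quotient.mk_eq_zero (T.relR l w)).2 ?_
      exact Submodule.mem_sup_right ⟨y, rfl⟩

theorem toKer_coe (l w : ℕ) (y : Fin r → (R2 P A B)) :
    (T.toKer l w y : T.XMod (l + 1) w) = Submodule.Quotient.mk (matV (prodΔ T.Δ l) y) := rfl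

theorem toKer_surjective (l w : ℕ) : Function.Surjective (T.toKer l w) := by
  rintro ⟨z, hz⟩
  obtain ⟨y, rfl⟩ := Submodule.mkQ_surjective _ z
  obtain ⟨y₁, hy₁, _, ⟨y₂, rfl⟩, rfl⟩ :=
    Submodule.mem_sup.1 ((Submodule.Quotient.mk_eq_zero (T.relR l w)).1 hz)
  refine ⟨y₂, Subtype.ext ?_⟩
  rw [toKer_coe]
  exact ((Submodule.Quotient.eq _).2 (Submodule.mem_sup_left (by simpa using hy₁))).symm

/-- The slack on the module. -/
def opMod (l : ℕ) : T.Mod l →ₗ[Rz B d] T.Mod l where
  toFun := Submodule.mapQ (T.MKer l) (T.MKer l) (matV T.slack) (sup_le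
    (fun _ hy => Submodule.mem_sup_left (T.matV_slack_Ker l hy))
    (fun _ hy => Submodule.mem_sup_right (matV_mem_sp (fun _ ha => mulVec_mem_vecIn _ ha) hy)))
  map_add' := map_add _
  map_smul' w m := map_smul _ (T.zHom w) m

theorem opMod_mkM (l : ℕ) (y : Fin r → (R2 P A B)) : T.opMod l (T.mkM l y) = T.mkM l (matV T.slack y) := rfl

/-- The quotient map to a level. -/
def mkLev (l w : ℕ) : (Fin r → (R2 P A B)) →ₗ[B] T.Mod l ⧸ T.levM l w :=
  ((T.levM l w).mkQ.restrictScalars B).comp ((T.mkM l).restrictScalars B)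

theorem mkLev_eq_zero {l w : ℕ} (hw : w ≤ v) {y : Fin r → (R2 P A B)} :
    T.mkLev l w y = 0 ↔ y ∈ T.levR l w :=
  (Submodule.Quotient.mk_eq_zero (T.levM l w)).trans (T.mkM_mem_levM hw)

theorem mkLev_surjective (l w : ℕ) : Function.Surjective (T.mkLev l w) :=
  (Submodule.mkQ_surjective _).comp (T.mkM_surjective l)

/-- Kernel to levels. -/
def toLevX (hw : ∀ {l w : ℕ}, w ≤ v → LinearMap.ker (T.toKer l w) ≤
      LinearMap.ker (h ^ 2 • T.mkLev l w)) (l w : ℕ) :
    LinearMap.ker (T.projX l w) →ₗ[B] T.Mod l ⧸ T.levM l w :=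
  if hv : w ≤ v then descend (T.toKer l w) (T.toKer_surjective l w) (h ^ 2 • T.mkLev l w) (hw hv)
  else 0

theorem ker_toKer {l w : ℕ} (hw : w ≤ v) :
    LinearMap.ker (T.toKer l w) ≤ LinearMap.ker (h ^ 2 • T.mkLev l w) := fun y hy => by
  have h1 : matV (prodΔ T.Δ l) y ∈ T.relR (l + 1) w :=
    (Submodule.Quotient.mk_eq_zero _).1 (congrArg Subtype.val (LinearMap.mem_ker.1 hy))
  rw [LinearMap.mem_ker, LinearMap.smul_apply, pow_two, mul_smul, ← map_smul]
  rw [(T.mkLev_eq_zero hw).2
    (Submodule.mem_sup_right (by rw [smul_B]; exact T.smul_mem_sp_Kn h1)), smul_zero]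

theorem ker_mkLev (hK : 1 ≤ K) {l w : ℕ} (hw : w ≤ v) :
    LinearMap.ker (T.mkLev l w) ≤
      LinearMap.ker ((T.toKer l w).comp (h • (matV T.slack).restrictScalars B)) := fun y hy => by
  refine LinearMap.mem_ker.2 (Subtype.ext ?_)
  rw [LinearMap.comp_apply, toKer_coe, LinearMap.smul_apply, LinearMap.restrictScalars_apply,
    smul_B, ← map_smul (matV T.slack)]
  exact (Submodule.Quotient.mk_eq_zero _).2 (T.slack_of_levR hK hw ((T.mkLev_eq_zero hw).1 hy))

/-- Levels to kernel. -/
def ofLevX (hK : 1 ≤ K) (l w : ℕ) : (T.Mod l ⧸ T.levM l w) →ₗ[B] LinearMap.ker (T.projX l w) :=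
  if hv : w ≤ v then descend (T.mkLev l w) (T.mkLev_surjective l w)
    ((T.toKer l w).comp (h • (matV T.slack).restrictScalars B)) (T.ker_mkLev hK hv)
  else 0

theorem toLevX_toKer {l w : ℕ} (hw : w ≤ v) (y : Fin r → (R2 P A B)) :
    T.toLevX (fun hw => T.ker_toKer hw) l w (T.toKer l w y) = h ^ 2 • T.mkLev l w y := by
  rw [toLevX, dif_pos hw, descend_apply]
  rfl

theorem ofLevX_mkLev (hK : 1 ≤ K) {l w : ℕ} (hw : w ≤ v) (y : Fin r → (R2 P A B)) :
    T.ofLevX hK l w (T.mkLev l w y) = h • T.toKer l w (matV T.slack y) := by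
  rw [ofLevX, dif_pos hw, descend_apply, LinearMap.comp_apply, LinearMap.smul_apply,
    LinearMap.restrictScalars_apply, map_smul]

/-- The slack on the tower. -/
def slackX (l w : ℕ) : T.XMod l w →ₗ[B] T.XMod l w :=
  if hv : w ≤ v then
    (Submodule.mapQ _ _ (matV T.slack) (T.slack_relR (l := l) hv)).restrictScalars B
  else 0

theorem slackX_mk {l w : ℕ} (hw : w ≤ v) (y : Fin r → (R2 P A B)) :
    T.slackX l w (Submodule.Quotient.mk y) = Submodule.Quotient.mk (matV T.slack y) := by
  rw [slackX, dif_pos hw]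
  rfl

theorem slackX_toKer {l w : ℕ} (hw : w ≤ v) (y : Fin r → (R2 P A B)) :
    T.slackX (l + 1) w (T.toKer l w y : T.XMod (l + 1) w) =
      (T.toKer l w (matV T.slack y) : T.XMod (l + 1) w) := by
  rw [toKer_coe, T.slackX_mk hw, toKer_coe, Submodule.Quotient.eq]
  refine Submodule.mem_sup_left ?_
  have := T.matV_congr hw (PEq.prodΔ T.slack_comm l) y
  rwa [matV_mul, matV_mul] at this

/-- The slack on the kernel. -/
def opKer (l w : ℕ) : LinearMap.ker (T.projX l w) →ₗ[B] LinearMap.ker (T.projX l w) :=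
  if hv : w ≤ v then
    LinearMap.codRestrict _ ((T.slackX (l + 1) w).comp (LinearMap.ker (T.projX l w)).subtype)
      fun z => by
        obtain ⟨y, rfl⟩ := T.toKer_surjective l w z
        rw [LinearMap.comp_apply, Submodule.subtype_apply, T.slackX_toKer hv]
        exact (T.toKer l w _).2
  else 0

theorem opKer_toKer {l w : ℕ} (hw : w ≤ v) (y : Fin r → (R2 P A B)) :
    T.opKer l w (T.toKer l w y) = T.toKer l w (matV T.slack y) := by
  rw [opKer, dif_pos hw]
  exact Subtype.ext (T.slackX_toKer hw y)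

include T in
/-- The vectors `a j • e i` generate over `B`. -/
theorem exists_gens : ∃ s : Fin (D₁ * Q ^ d) → (Fin r → (R2 P A B)),
    Submodule.span B (Set.range s) = ⊤ := by
  classical
  obtain ⟨m, a, ha, hle⟩ := T.gensA
  let g : Fin m × Fin r → (Fin r → (R2 P A B)) := fun q => incV (Pi.single q.2 (a q.1))
  have hg : Submodule.span B (Set.range g) = ⊤ := by
    refine eq_top_iff.2 fun y _ => ?_
    refine vec_induction (motive := fun y => y ∈ Submodule.span B (Set.range g)) (zero_mem _)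
      (fun b c => ?_) (fun y y' hy hy' => add_mem hy hy') y
    rw [← smul_B]
    refine Submodule.smul_mem _ _ ?_
    rw [← Finset.univ_sum_single c, show (incV (∑ i, Pi.single i (c i)) : Fin r → (R2 P A B)) =
      ∑ i, incV (Pi.single i (c i)) from
        map_sum (AddMonoidHom.mk' (incV (P := P) (B := B)) incV_add) _ _]
    refine Submodule.sum_mem _ fun i _ => ?_
    have hc : c i ∈ Submodule.span P (Set.range a) := ha ▸ Submodule.mem_top
    generalize c i = c at hc ⊢
    induction hc using Submodule.span_induction with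
    | mem c hc =>
      obtain ⟨j, rfl⟩ := hc
      exact Submodule.subset_span ⟨(j, i), rfl⟩
    | zero => rw [Pi.single_zero, incV_zero]; exact zero_mem _
    | add c c' _ _ hc hc' => rw [Pi.single_add, incV_add]; exact add_mem hc hc'
    | smul π c _ hc =>
      rw [Algebra.smul_def, ← smul_eq_mul, Pi.single_smul', incV_smul, inA_algebraMap, ← smul_B]
      exact Submodule.smul_mem _ _ hc
  let e := (finProdFinEquiv (m := m) (n := r)).symm
  refine ⟨fun i => if hi : (i : ℕ) < m * r then g (e ⟨i, hi⟩) else 0, eq_top_iff.2 (hg ▸ ?_)⟩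
  rw [Submodule.span_le]
  rintro _ ⟨q, rfl⟩
  refine Submodule.subset_span ⟨⟨finProdFinEquiv q, lt_of_lt_of_le (Fin.is_lt _) hle⟩, ?_⟩
  refine (dif_pos (finProdFinEquiv q).is_lt).trans ?_
  exact congrArg g (Equiv.symm_apply_apply _ q)

include T in
theorem span_of_surjective {W : Type u} [AddCommGroup W] [Module B W]
    (f : (Fin r → (R2 P A B)) →ₗ[B] W) (hf : Function.Surjective f) :
    ∃ s : Fin (D₁ * Q ^ d) → W, Submodule.span B (Set.range s) = ⊤ := by
  obtain ⟨s, hs⟩ := T.exists_gens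
  refine ⟨fun i => f (s i), ?_⟩
  rw [Set.range_comp' f s, ← Submodule.map_span, hs, Submodule.map_top,
    LinearMap.range_eq_top.2 hf]

end Data

end Vale.Agent.P202.Mixed.Assemble
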