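import Vale.Agent.P202.Mixed.Assemble.Base

/-!
# P202 mixed characteristic: the kernels and the slack of the lattice data
-/

noncomputable section

namespace Vale.Agent.P202.Mixed.Assemble

open IsLocalRing TensorProduct

universe u

variable {P A B : Type u} [CommRing P] [CommRing A] [CommRing B] [Algebra P A] [Algebra P B]
  {r : ℕ}

/-- The span of the lattice vectors in a set. -/
def sp (S : Submodule A (Fin r → A)) : Submodule (R2 P A B) (Fin r → (R2 P A B)) :=
  Submodule.span (R2 P A B) (incV '' (S : Set (Fin r → A)))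

theorem incV_mem_sp {S : Submodule A (Fin r → A)} {a : Fin r → A} (ha : a ∈ S) :
    (incV a : Fin r → (R2 P A B)) ∈ sp S :=
  Submodule.subset_span ⟨a, ha, rfl⟩

/-- Combinations of lattice vectors, written with scalars from `B`. -/
theorem sp_induction {S : Submodule A (Fin r → A)} {motive : (Fin r → (R2 P A B)) → Prop}
    (h0 : motive 0) (hbase : ∀ (b : B), ∀ a ∈ S, motive ((inB b : (R2 P A B)) • incV a))
    (hadd : ∀ y y', motive y → motive y' → motive (y + y')) {y : Fin r → (R2 P A B)} (hy : y ∈ sp S) :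
    motive y := by
  suffices ∀ q : (R2 P A B), motive (q • y) by simpa using this 1
  induction hy using Submodule.span_induction with
  | mem x hx =>
    obtain ⟨a, ha, rfl⟩ := hx
    intro q
    induction q using TensorProduct.induction_on with
    | zero => simpa using h0
    | tmul c b =>
      rw [← inB_mul_inA, mul_smul, ← incV_smul]
      exact hbase b _ (S.smul_mem c ha)
    | add q q' hq hq' => rw [add_smul]; exact hadd _ _ hq hq'
  | zero => intro q; simpa using h0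
  | add x x' _ _ hx hx' => intro q; rw [smul_add]; exact hadd _ _ (hx q) (hx' q)
  | smul c x _ hx => intro q; rw [smul_smul]; exact hx _

theorem matV_mem_sp {S S' : Submodule A (Fin r → A)} {M : Matrix (Fin r) (Fin r) A}
    (h : ∀ a ∈ S, M.mulVec a ∈ S') {y : Fin r → (R2 P A B)} (hy : y ∈ sp S) : matV M y ∈ sp S' := by
  refine sp_induction (motive := fun y => matV M y ∈ sp S') (by rw [map_zero]; exact zero_mem _)
    (fun b a ha => ?_) (fun y y' hy hy' => by rw [map_add]; exact add_mem hy hy') hy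
  rw [map_smul, ← incV_mulVec]
  exact Submodule.smul_mem _ _ (incV_mem_sp (h a ha))

theorem sp_mono {S S' : Submodule A (Fin r → A)} (h : S ≤ S') : (sp S : Submodule (R2 P A B) _) ≤ sp S' :=
  Submodule.span_mono (Set.image_mono h)

namespace PEq

variable {p n : ℕ} {L M N M' : Matrix (Fin r) (Fin r) A}

theorem refl (M : Matrix (Fin r) (Fin r) A) : PEq p n M M := fun i j => by simp

theorem symm (h : PEq p n M N) : PEq p n N M := fun i j => (dvd_sub_comm).1 (h i j)

theorem trans (h : PEq p n L M) (h' : PEq p n M N) : PEq p n L N := fun i j => by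
  have := dvd_add (h i j) (h' i j)
  rwa [sub_add_sub_cancel] at this

theorem mul_left (L : Matrix (Fin r) (Fin r) A) (h : PEq p n M N) : PEq p n (L * M) (L * N) :=
  fun i j => by
  rw [← Matrix.sub_apply, ← Matrix.mul_sub, Matrix.mul_apply]
  exact Finset.dvd_sum fun k _ => Dvd.dvd.mul_left (h k j) _

theorem mul_right (L : Matrix (Fin r) (Fin r) A) (h : PEq p n M N) : PEq p n (M * L) (N * L) :=
  fun i j => by
  rw [← Matrix.sub_apply, ← Matrix.sub_mul, Matrix.mul_apply]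
  exact Finset.dvd_sum fun k _ => Dvd.dvd.mul_right (h i k) _

theorem smul (c : A) (h : PEq p n M N) : PEq p n (c • M) (c • N) := fun i j => by
  rw [Matrix.smul_apply, Matrix.smul_apply, smul_eq_mul, smul_eq_mul, ← mul_sub]
  exact Dvd.dvd.mul_left (h i j) _

theorem add (h : PEq p n M N) (h' : PEq p n L M') : PEq p n (M + L) (N + M') := fun i j => by
  rw [Matrix.add_apply, Matrix.add_apply, add_sub_add_comm]
  exact dvd_add (h i j) (h' i j)

/-- Commutation modulo `p ^ n` with all factors gives commutation with the products. -/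
theorem prodΔ {Δ : ℕ → Matrix (Fin r) (Fin r) A} (h : ∀ l, PEq p n (M * Δ l) (Δ l * M)) :
    ∀ l, PEq p n (M * Assemble.prodΔ Δ l) (Assemble.prodΔ Δ l * M)
  | 0 => by simpa [Assemble.prodΔ] using refl M
  | l + 1 => by
    have h1 := (PEq.prodΔ h l).mul_right (Δ l)
    have h2 := (h l).mul_left (Assemble.prodΔ Δ l)
    rw [Matrix.mul_assoc, Matrix.mul_assoc] at h1
    rw [← Matrix.mul_assoc] at h2
    simp only [Assemble.prodΔ, Matrix.mul_assoc] at h1 h2 ⊢
    exact h1.trans h2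

theorem pow (h : PEq p n (M * N) (N * M)) : ∀ k : ℕ, PEq p n (M ^ k * N) (N * M ^ k)
  | 0 => by simpa using refl N
  | k + 1 => by
    have h1 := (PEq.pow h k).mul_left M
    have h2 := h.mul_right (M ^ k)
    simp only [pow_succ', Matrix.mul_assoc] at h1 h2 ⊢
    exact h1.trans h2

end PEq

theorem prodΔ_add (Δ : ℕ → Matrix (Fin r) (Fin r) A) (m : ℕ) :
    ∀ k, ∃ X, prodΔ Δ (m + k) = prodΔ Δ m * X
  | 0 => ⟨1, by simp⟩
  | k + 1 => by
    obtain ⟨X, hX⟩ := prodΔ_add Δ m k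
    exact ⟨X * Δ (m + k), by rw [← Nat.add_assoc, prodΔ, hX, Matrix.mul_assoc]⟩

variable [IsLocalRing B] {p d D Q K v D₁ E₀ mB mM : ℕ} {x : Fin d → B} {h : B}

namespace Data

variable (T : Data P A B p x h D Q K v D₁ E₀ r mB mM)

/-- Multiplication by `h`. -/
def hR : (R2 P A B) := inB h

theorem hP_eq : (inB (algebraMap P B T.hP) : (R2 P A B)) = inB h := by rw [T.h_eq]

theorem cok : ∀ b : B, ∃ π : P, algebraMap P B π = algebraMap P B T.hP * b := fun b => by
  rw [T.h_eq]; exact T.cokilled b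

theorem pow_mem_box : ∀ j, (p : A) ^ j ∈ T.box (j * K)
  | 0 => by simp [T.box_zero]
  | j + 1 => by
    rw [pow_succ, Nat.succ_mul]
    exact T.box_mul _ _ (Ideal.mul_mem_mul (pow_mem_box j) T.p_box)

theorem span_p_le {w : ℕ} (hw : w ≤ v) : Ideal.span {(p : A) ^ T.n} ≤ T.box w :=
  (Ideal.span_singleton_le_iff_mem _).2
    (T.box_anti (hw.trans T.le_nK) (T.pow_mem_box T.n))

theorem prodΔ_box : ∀ (l : ℕ) {u : ℕ} {a : Fin r → A}, a ∈ vecIn (T.box u) →
    (prodΔ T.Δ l).mulVec a ∈ vecIn (T.box (u + l * K))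
  | 0, u, a, ha => by simpa [prodΔ] using ha
  | l + 1, u, a, ha => by
    rw [prodΔ, ← Matrix.mulVec_mulVec]
    have := prodΔ_box l (vecIn_mono (T.box_mul K u) (mulVec_mem_mul (T.Δ_box l) ha))
    rwa [show K + u + l * K = u + (l + 1) * K by rw [Nat.succ_mul]; omega] at this

/-- A product of the matrices lowers the weight, up to a power of `e`. -/
theorem prodΔ_step : ∀ (l : ℕ) {w : ℕ} {a : Fin r → A},
    (prodΔ T.Δ l).mulVec a ∈ vecIn (T.box w) → T.e ^ (l * w) • a ∈ vecIn (T.box (w - l * K))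
  | 0, w, a, ha => by simpa [prodΔ] using ha
  | l + 1, w, a, ha => by
    rcases Nat.lt_or_ge w ((l + 1) * K) with hlt | hge
    · rw [show w - (l + 1) * K = 0 by omega, T.box_zero]
      exact mem_vecIn.2 fun i => trivial
    rw [prodΔ, ← Matrix.mulVec_mulVec] at ha
    have h1 := prodΔ_step l ha
    rw [← smul_mulVec_comm,
      show w - l * K = w - (l + 1) * K + K by rw [Nat.succ_mul] at hge ⊢; omega] at h1
    have h2 := T.Δ_step l _ _ h1
    rw [smul_smul, ← pow_add] at h2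
    obtain ⟨k, hk⟩ := Nat.exists_eq_add_of_le (show w - (l + 1) * K + l * w ≤ (l + 1) * w by
      rw [Nat.succ_mul l w]; omega)
    rw [hk, Nat.add_comm _ k, pow_add, mul_smul]
    exact Submodule.smul_mem _ _ h2

/-- The relations of the lattice at step `l` and level `w`. -/
def relA (l w : ℕ) : Submodule A (Fin r → A) :=
  vecIn (T.box w) ⊔ LinearMap.range (prodΔ T.Δ l).mulVecLin ⊔ vecIn (kerA P A B)

/-- The kernel of the comparison at level `w`. -/
def Kn (l w : ℕ) : Submodule A (Fin r → A) := (T.relA (l + 1) w).comap (prodΔ T.Δ l).mulVecLin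

theorem mem_Kn {l w : ℕ} {a : Fin r → A} :
    a ∈ T.Kn l w ↔ (prodΔ T.Δ l).mulVec a ∈ T.relA (l + 1) w := Iff.rfl

theorem relA_mulVec {l w : ℕ} (hw : w ≤ v) {M : Matrix (Fin r) (Fin r) A}
    (hM : ∀ l, PEq p T.n (M * T.Δ l) (T.Δ l * M)) {a : Fin r → A} (ha : a ∈ T.relA l w) :
    M.mulVec a ∈ T.relA l w := by
  obtain ⟨q, hq, j, hj, rfl⟩ := Submodule.mem_sup.1 ha
  obtain ⟨β, hβ, y, ⟨b, rfl⟩, rfl⟩ := Submodule.mem_sup.1 hq
  rw [Matrix.mulVec_add, Matrix.mulVec_add, Matrix.mulVecLin_apply, Matrix.mulVec_mulVec]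
  refine add_mem (add_mem (Submodule.mem_sup_left (Submodule.mem_sup_left (mulVec_mem_vecIn _ hβ)))
    ?_) (Submodule.mem_sup_right (mulVec_mem_vecIn _ hj))
  have h1 := vecIn_mono (T.span_p_le hw) ((PEq.prodΔ hM l).mulVec b)
  have h2 : (prodΔ T.Δ l * M).mulVec b ∈ T.relA l w := by
    rw [← Matrix.mulVec_mulVec]
    exact Submodule.mem_sup_left (Submodule.mem_sup_right ⟨_, rfl⟩)
  have := add_mem (Submodule.mem_sup_left (Submodule.mem_sup_left h1) :
    _ ∈ T.relA l w) h2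
  rwa [sub_add_cancel] at this

theorem Kn_mulVec {l w : ℕ} (hw : w ≤ v) {M : Matrix (Fin r) (Fin r) A}
    (hM : ∀ l, PEq p T.n (M * T.Δ l) (T.Δ l * M)) {a : Fin r → A} (ha : a ∈ T.Kn l w) :
    M.mulVec a ∈ T.Kn l w := by
  have h1 := T.relA_mulVec hw hM (T.mem_Kn.1 ha)
  have h2 := vecIn_mono (T.span_p_le hw) ((PEq.prodΔ hM l).mulVec a)
  rw [Matrix.mulVec_mulVec] at h1
  rw [mem_Kn, Matrix.mulVec_mulVec]
  have := sub_mem h1 (Submodule.mem_sup_left (Submodule.mem_sup_left h2) :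
    _ ∈ T.relA (l + 1) w)
  rwa [sub_sub_cancel] at this

theorem box_le_Kn {l w u : ℕ} (hu : w ≤ u + l * K) : vecIn (T.box u) ≤ T.Kn l w := fun _ ha =>
  Submodule.mem_sup_left (Submodule.mem_sup_left (vecIn_mono (T.box_anti hu) (T.prodΔ_box l ha)))

theorem Δ_le_Kn (l w : ℕ) (b : Fin r → A) : (T.Δ l).mulVec b ∈ T.Kn l w := by
  rw [mem_Kn, Matrix.mulVec_mulVec]
  exact Submodule.mem_sup_left (Submodule.mem_sup_right ⟨b, rfl⟩)

theorem s_smul_kerA {a : Fin r → A} (ha : a ∈ vecIn (kerA P A B)) :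
    ∃ b, T.s • a - (prodΔ T.Δ D).mulVec b ∈ vecIn (Ideal.span {(p : A) ^ T.n}) := by
  classical
  suffices ∀ (i : Fin r) (c : A), c ∈ kerA P A B →
      ∃ b, T.s • Pi.single i c - (prodΔ T.Δ D).mulVec b ∈ vecIn (Ideal.span {(p : A) ^ T.n}) by
    choose b hb using fun i => this i (a i) (ha i trivial)
    refine ⟨∑ i, b i, ?_⟩
    rw [← Finset.univ_sum_single a, Finset.smul_sum, ← Matrix.mulVecLin_apply, map_sum,
      ← Finset.sum_sub_distrib]
    exact Submodule.sum_mem _ fun i _ => hb i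
  intro i c hc
  induction hc using Submodule.span_induction with
  | mem y hy =>
    obtain ⟨π, hπ, rfl⟩ := hy
    obtain ⟨b, hb⟩ := T.gfac π (RingHom.mem_ker.1 hπ) (Pi.single i 1)
    refine ⟨b, ?_⟩
    rwa [← Pi.single_smul', smul_eq_mul, mul_one] at hb
  | zero => exact ⟨0, by simp⟩
  | add y y' _ _ hy hy' =>
    obtain ⟨b, hb⟩ := hy
    obtain ⟨b', hb'⟩ := hy'
    refine ⟨b + b', ?_⟩
    rw [Pi.single_add, smul_add, Matrix.mulVec_add, add_sub_add_comm]
    exact add_mem hb hb'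
  | smul k y _ hy =>
    obtain ⟨b, hb⟩ := hy
    refine ⟨k • b, ?_⟩
    rw [smul_eq_mul, ← smul_eq_mul k y, Pi.single_smul', Matrix.mulVec_smul, smul_comm, ← smul_sub]
    exact Submodule.smul_mem _ k hb

/-- Up to a power of `s` the kernel of the comparison is the untilt kernel and high weight. -/
theorem Kn_small {l w : ℕ} (hl : l < D) (hw : w ≤ v) {a : Fin r → A} (ha : a ∈ T.Kn l w) :
    ∃ b, T.s ^ (l * w + 1) • a - (T.Δ l).mulVec b ∈ vecIn (T.box (w - l * K)) := by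
  obtain ⟨q, hq, j, hj, he⟩ := Submodule.mem_sup.1 (T.mem_Kn.1 ha)
  obtain ⟨β, hβ, y, ⟨b, rfl⟩, rfl⟩ := Submodule.mem_sup.1 hq
  obtain ⟨bD, hbD⟩ := T.s_smul_kerA hj
  obtain ⟨k, hk⟩ := Nat.exists_eq_add_of_le (Nat.succ_le_of_lt hl)
  obtain ⟨X, hX⟩ := prodΔ_add T.Δ (l + 1) k
  have hX' : prodΔ T.Δ D = prodΔ T.Δ (l + 1) * X := hk ▸ hX
  rw [hX', ← Matrix.mulVec_mulVec, prodΔ, ← Matrix.mulVec_mulVec] at hbD
  rw [Matrix.mulVecLin_apply, prodΔ, ← Matrix.mulVec_mulVec] at he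
  set b' := T.s • b + X.mulVec bD with hb'
  have h1 : (prodΔ T.Δ l).mulVec (T.s • a - (T.Δ l).mulVec b') ∈ vecIn (T.box w) := by
    have : (prodΔ T.Δ l).mulVec (T.s • a - (T.Δ l).mulVec b') = T.s • β +
        (T.s • j - (prodΔ T.Δ l).mulVec ((T.Δ l).mulVec (X.mulVec bD))) := by
      rw [Matrix.mulVec_sub, Matrix.mulVec_smul, ← he, hb', Matrix.mulVec_add, Matrix.mulVec_smul,
        Matrix.mulVec_add, Matrix.mulVec_smul, smul_add, smul_add]
      abel
    rw [this]
    exact add_mem (Submodule.smul_mem _ _ hβ) (vecIn_mono (T.span_p_le hw) hbD)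
  obtain ⟨c, hc⟩ := pow_dvd_pow_of_dvd T.e_dvd (l * w)
  refine ⟨(T.s ^ (l * w)) • b', ?_⟩
  have h2 := Submodule.smul_mem (vecIn (T.box (w - l * K))) c (T.prodΔ_step l h1)
  rw [smul_smul, mul_comm c, ← hc, smul_sub, smul_smul, ← pow_succ] at h2
  rwa [Matrix.mulVec_smul]

/-- Every element of `B` moves lattice vectors into the lattice after one slack. -/
theorem exists_MB (l : ℕ) (b : B) : ∃ M : Matrix (Fin r) (Fin r) A,
    (∀ l', PEq p T.n (M * T.Δ l') (T.Δ l' * M)) ∧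
    ∀ a, (inB b : (R2 P A B)) • matV T.Γ (incV a) - incV (M.mulVec a) ∈ T.Ker l := by
  have hb : b ∈ Submodule.span P (Set.range T.genB) := T.genB_span ▸ Submodule.mem_top
  induction hb using Submodule.span_induction with
  | mem y hy =>
    obtain ⟨i, rfl⟩ := hy
    exact ⟨T.MB l i, T.MB_comm l i, T.MB_eq l i⟩
  | zero => exact ⟨0, fun l' => by simpa using PEq.refl _,
      fun a => by simp [incV_zero]⟩
  | add y y' _ _ hy hy' =>
    obtain ⟨M, hM, hM'⟩ := hy
    obtain ⟨N, hN, hN'⟩ := hy'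
    refine ⟨M + N, fun l' => ?_, fun a => ?_⟩
    · rw [Matrix.add_mul, Matrix.mul_add]
      exact (hM l').add (hN l')
    · rw [map_add, add_smul, Matrix.add_mulVec, incV_add, add_sub_add_comm]
      exact add_mem (hM' a) (hN' a)
  | smul c y _ hy =>
    obtain ⟨M, hM, hM'⟩ := hy
    refine ⟨algebraMap P A c • M, fun l' => ?_, fun a => ?_⟩
    · rw [Matrix.smul_mul, Matrix.mul_smul]
      exact (hM l').smul _
    · rw [Algebra.smul_def c y, map_mul, ← inA_algebraMap, mul_smul, Matrix.smul_mulVec, incV_smul,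
        ← smul_sub]
      exact Submodule.smul_mem _ _ (hM' a)

/-- One slack moves combinations of a stable set of lattice vectors into that set. -/
theorem pull {l : ℕ} {S : Submodule A (Fin r → A)}
    (hS : ∀ M : Matrix (Fin r) (Fin r) A, (∀ l', PEq p T.n (M * T.Δ l') (T.Δ l' * M)) →
      ∀ a ∈ S, M.mulVec a ∈ S) {y : Fin r → (R2 P A B)} (hy : y ∈ sp S) :
    ∃ a ∈ S, matV T.Γ y - incV a ∈ T.Ker l := by
  refine sp_induction (motive := fun y => ∃ a ∈ S, matV T.Γ y - incV a ∈ T.Ker l)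
    ⟨0, zero_mem _, by simp [incV_zero]⟩ (fun b a ha => ?_) (fun y y' hy hy' => ?_) hy
  · obtain ⟨M, hM, hM'⟩ := T.exists_MB l b
    refine ⟨M.mulVec a, hS M hM a ha, ?_⟩
    rw [map_smul]
    exact hM' a
  · obtain ⟨a, ha, h1⟩ := hy
    obtain ⟨a', ha', h1'⟩ := hy'
    exact ⟨a + a', add_mem ha ha', by rw [map_add, incV_add, add_sub_add_comm]; exact add_mem h1 h1'⟩

theorem vecIn_stable (I : Ideal A) :
    ∀ M : Matrix (Fin r) (Fin r) A, (∀ l', PEq p T.n (M * T.Δ l') (T.Δ l' * M)) →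
      ∀ a ∈ vecIn I, M.mulVec a ∈ (vecIn I : Submodule A (Fin r → A)) :=
  fun M _ _ ha => mulVec_mem_vecIn M ha

theorem matV_Γ_pow_Ker (l : ℕ) {y : Fin r → (R2 P A B)} (hy : y ∈ T.Ker l) :
    ∀ k, matV (T.Γ ^ k) y ∈ T.Ker l
  | 0 => by rwa [pow_zero, matV_one]
  | k + 1 => by rw [matV_pow_succ]; exact T.Γ_ker l _ (matV_Γ_pow_Ker l hy k)

/-- Further slack keeps an element in the lattice set modulo the kernel. -/
theorem pull_more {l : ℕ} {S : Submodule A (Fin r → A)}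
    (hS : ∀ M : Matrix (Fin r) (Fin r) A, (∀ l', PEq p T.n (M * T.Δ l') (T.Δ l' * M)) →
      ∀ a ∈ S, M.mulVec a ∈ S) {y : Fin r → (R2 P A B)} {j k : ℕ} (hjk : j ≤ k)
    (hy : ∃ a ∈ S, matV (T.Γ ^ j) y - incV a ∈ T.Ker l) :
    ∃ a ∈ S, matV (T.Γ ^ k) y - incV a ∈ T.Ker l := by
  induction hjk with
  | refl => exact hy
  | step _ ih =>
    obtain ⟨a, ha, h1⟩ := ih
    refine ⟨T.Γ.mulVec a, hS _ T.Γ_comm a ha, ?_⟩
    rw [matV_pow_succ, incV_mulVec, ← map_sub]
    exact T.Γ_ker l _ h1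

/-- Each element of the maximal ideal gains weight `K` after two slacks. -/
theorem pull_max {l : ℕ} {β : B} (hβ : β ∈ maximalIdeal B) {J : Ideal A} {a : Fin r → A}
    (ha : a ∈ vecIn J) : ∃ a' ∈ vecIn (zId T.z ^ K * J),
      matV (T.Γ ^ 2) ((inB β : (R2 P A B)) • incV a) - incV a' ∈ T.Ker l := by
  suffices ∀ b : B, ∃ a' ∈ vecIn (zId T.z ^ K * J),
      matV (T.Γ ^ 2) ((inB (b * β) : (R2 P A B)) • incV a) - incV a' ∈ T.Ker l by simpa using this 1
  rw [← T.genM_span] at hβ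
  induction hβ using Submodule.span_induction with
  | mem y hy =>
    obtain ⟨i, rfl⟩ := hy
    intro b
    obtain ⟨M, hM, hM'⟩ := T.exists_MB l b
    refine ⟨M.mulVec ((T.MM l i).mulVec a),
      mulVec_mem_vecIn _ (mulVec_mem_mul (T.MM_small l i) ha), ?_⟩
    have h1 := Submodule.smul_mem _ (inB b : (R2 P A B)) (T.Γ_ker l _ (T.MM_eq l i a))
    rw [map_sub, smul_sub, map_smul, smul_smul, ← map_mul] at h1
    have h2 := add_mem h1 (hM' ((T.MM l i).mulVec a))
    rw [sub_add_sub_cancel] at h2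
    rwa [pow_two, matV_mul, map_smul, map_smul]
  | zero => intro b; exact ⟨0, zero_mem _, by simp [incV_zero]⟩
  | add y y' _ _ hy hy' =>
    intro b
    obtain ⟨a₁, h₁, e₁⟩ := hy b
    obtain ⟨a₂, h₂, e₂⟩ := hy' b
    refine ⟨a₁ + a₂, add_mem h₁ h₂, ?_⟩
    rw [mul_add, map_add, add_smul, map_add, incV_add, add_sub_add_comm]
    exact add_mem e₁ e₂
  | smul c' y _ hy => intro b; rw [smul_eq_mul, ← mul_assoc]; exact hy _

/-- A power of the maximal ideal gains the corresponding weight. -/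
theorem pull_pow {l : ℕ} : ∀ (j : ℕ) {β : B}, β ∈ maximalIdeal B ^ j → ∀ {J : Ideal A}
    {a : Fin r → A}, a ∈ vecIn J → ∃ a' ∈ vecIn (zId T.z ^ (j * K) * J),
      matV (T.Γ ^ (2 * j + 1)) ((inB β : (R2 P A B)) • incV a) - incV a' ∈ T.Ker l
  | 0, β, _, J, a, ha => by
    rw [Nat.zero_mul, pow_zero, Ideal.one_eq_top, Ideal.top_mul, Nat.mul_zero, Nat.zero_add,
      pow_one]
    exact T.pull (T.vecIn_stable J) (Submodule.smul_mem _ _ (incV_mem_sp ha))
  | j + 1, β, hβ, J, a, ha => by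
    rw [pow_succ] at hβ
    refine Submodule.mul_induction_on (C := fun β => ∃ a' ∈ vecIn (zId T.z ^ ((j + 1) * K) * J),
      matV (T.Γ ^ (2 * (j + 1) + 1)) ((inB β : (R2 P A B)) • incV a) - incV a' ∈ T.Ker l) hβ
      (fun β₁ h₁ β₂ h₂ => ?_) (fun y y' hy hy' => ?_)
    · obtain ⟨a₁, ha₁, e₁⟩ := T.pull_max (l := l) h₂ ha
      obtain ⟨a₂, ha₂, e₂⟩ := pull_pow j h₁ ha₁
      refine ⟨a₂, ?_, ?_⟩
      · rwa [Nat.succ_mul, pow_add, mul_assoc]
      · have h3 := T.matV_Γ_pow_Ker l (Submodule.smul_mem _ (inB β₁ : (R2 P A B)) e₁) (2 * j + 1)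
        rw [smul_sub, map_sub] at h3
        have h4 := add_mem h3 e₂
        rw [sub_add_sub_cancel] at h4
        rwa [show 2 * (j + 1) + 1 = 2 * j + 1 + 2 by ring, pow_add, matV_mul, map_mul, mul_smul,
          map_smul (matV (T.Γ ^ 2))]
    · obtain ⟨a₁, h₁, e₁⟩ := hy
      obtain ⟨a₂, h₂, e₂⟩ := hy'
      refine ⟨a₁ + a₂, add_mem h₁ h₂, ?_⟩
      rw [map_add, add_smul, map_add, incV_add, add_sub_add_comm]
      exact add_mem e₁ e₂

end Data

end Vale.Agent.P202.Mixed.Assemble
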