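import Vale.Agent.P202.Mixed.Assemble.Ops

/-!
# P202 mixed characteristic: weights on vectors over the lattice with `B` adjoined
-/

noncomputable section

namespace Vale.Agent.P202.Mixed.Assemble

open IsLocalRing TensorProduct

universe u

variable {P A B : Type u} [CommRing P] [CommRing A] [CommRing B] [Algebra P A] [Algebra P B]
  {r : ℕ} [IsLocalRing B] {p d D Q K v D₁ E₀ mB mM : ℕ} {x : Fin d → B} {h : B}

namespace Data

variable (T : Data P A B p x h D Q K v D₁ E₀ r mB mM)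

/-- The operators and `B` acting on `A ⊗ B`. -/
def zHom : Rz B d →+* (R2 P A B) := MvPolynomial.eval₂Hom inB fun a => inA (T.z a)

theorem zHom_C (b : B) : T.zHom (MvPolynomial.C b) = (inB b : (R2 P A B)) := MvPolynomial.eval₂Hom_C _ _ b

theorem zHom_X (a : Fin d) : T.zHom (MvPolynomial.X a) = (inA (T.z a) : (R2 P A B)) :=
  MvPolynomial.eval₂Hom_X' _ _ a

theorem zHom_comp_C : T.zHom.comp MvPolynomial.C = (inB : B →+* (R2 P A B)) := RingHom.ext T.zHom_C

theorem map_zIdeal (b : ℕ) : (zIdeal B d ^ b).map T.zHom = ((zId T.z ^ b).map inA : Ideal (R2 P A B)) := by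
  rw [Ideal.map_pow, Ideal.map_pow, zIdeal, zId, Ideal.map_span, Ideal.map_span, ← Set.range_comp,
    ← Set.range_comp]
  congr 3
  exact funext T.zHom_X

/-- The weight ideal in `A ⊗ B`. -/
def wR (u : ℕ) : Ideal (R2 P A B) := (wIdeal B d K (u : ℤ)).map T.zHom

theorem wR_eq (u : ℕ) : T.wR u = ⨆ (a : ℕ) (b : ℕ) (_ : u ≤ a * K + b),
    ((maximalIdeal B ^ a).map (inB : B →+* (R2 P A B))) * (zId T.z ^ b).map inA := by
  simp only [wR, wIdeal, Ideal.map_iSup, Ideal.map_mul, Ideal.map_map, zHom_comp_C, map_zIdeal,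
    Nat.cast_le]

/-- The part of weight at least `u`. -/
def filR (u : ℕ) : Submodule (R2 P A B) (Fin r → (R2 P A B)) := T.wR u • ⊤

theorem mem_filR_of_entries {u : ℕ} {y : Fin r → (R2 P A B)} (hy : ∀ i, y i ∈ T.wR u) : y ∈ T.filR u := by
  classical
  rw [← Finset.univ_sum_single y]
  refine Submodule.sum_mem _ fun i _ => ?_
  rw [show Pi.single i (y i) = y i • (Pi.single i 1 : Fin r → (R2 P A B)) by
    rw [← Pi.single_smul', smul_eq_mul, mul_one]]
  exact Submodule.smul_mem_smul (hy i) Submodule.mem_top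

theorem zId_le_wR {u : ℕ} : (zId T.z ^ u).map inA ≤ T.wR u := by
  rw [T.wR_eq]
  refine le_iSup_of_le 0 (le_iSup_of_le u (le_iSup_of_le (by omega) ?_))
  rw [pow_zero, Ideal.one_eq_top, Ideal.map_top, Ideal.top_mul]

theorem box_le_wR (u : ℕ) : (T.box u).map inA ≤ T.wR u := by
  refine (Ideal.map_mono (T.box_le u)).trans ?_
  rw [T.wR_eq]
  simp only [Ideal.map_iSup, Ideal.map_mul, Ideal.map_span, Set.image_singleton, map_pow,
    map_natCast]
  refine iSup_mono fun j => iSup_mono fun b => iSup_mono fun _ => Ideal.mul_mono ?_ le_rfl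
  rw [Ideal.span_singleton_le_iff_mem, ← map_natCast (inB : B →+* (R2 P A B)), ← map_pow]
  exact Ideal.mem_map_of_mem _ (Ideal.pow_mem_pow T.p_mem j)

theorem sp_box_le_filR (u : ℕ) : sp (vecIn (T.box u)) ≤ T.filR u :=
  Submodule.span_le.2 (by
    rintro _ ⟨a, ha, rfl⟩
    exact T.mem_filR_of_entries fun i => T.box_le_wR u (Ideal.mem_map_of_mem _ (ha i trivial)))

theorem sp_zId_le_filR (u : ℕ) : sp (vecIn (zId T.z ^ u)) ≤ T.filR u :=
  Submodule.span_le.2 (by
    rintro _ ⟨a, ha, rfl⟩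
    exact T.mem_filR_of_entries fun i => T.zId_le_wR (Ideal.mem_map_of_mem _ (ha i trivial)))

/-- Vectors all whose multiples are pulled into weight `u` of the lattice. -/
def pulled (l u : ℕ) : Submodule (R2 P A B) (Fin r → (R2 P A B)) where
  carrier := {y | ∀ q : (R2 P A B), ∃ a ∈ vecIn (zId T.z ^ u),
    matV (T.Γ ^ (2 * u + 1)) (q • y) - incV a ∈ T.Ker l}
  zero_mem' q := ⟨0, zero_mem _, by simp [incV_zero]⟩
  add_mem' {y y'} hy hy' q := by
    obtain ⟨a, ha, e⟩ := hy q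
    obtain ⟨a', ha', e'⟩ := hy' q
    refine ⟨a + a', add_mem ha ha', ?_⟩
    rw [smul_add, map_add, incV_add, add_sub_add_comm]
    exact add_mem e e'
  smul_mem' c y hy q := by rw [smul_smul]; exact hy _

/-- The slack pulls the weight filtration into the weight ideals of the lattice. -/
theorem filR_le_pulled (hK : 1 ≤ K) (l u : ℕ) : T.filR u ≤ T.pulled l u := by
  rw [filR, T.wR_eq]
  simp only [Submodule.iSup_smul, iSup_le_iff]
  intro a b hab
  rw [Ideal.map, Ideal.map, Ideal.span_mul_span', Submodule.smul_le]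
  intro c hc y _
  induction hc using Submodule.span_induction with
  | mem c hc =>
    obtain ⟨_, ⟨β, hβ, rfl⟩, _, ⟨a₀, ha₀, rfl⟩, rfl⟩ := hc
    intro q
    simp only [smul_smul]
    rw [show q * (inB β * inA a₀ : (R2 P A B)) = inB β * (inA a₀ * q) by ring, mul_smul, mul_smul]
    refine vec_induction (motive := fun z => ∃ a ∈ vecIn (zId T.z ^ u),
      matV (T.Γ ^ (2 * u + 1)) ((inB β : (R2 P A B)) • (inA a₀ : (R2 P A B)) • z) - incV a ∈ T.Ker l)
      ⟨0, zero_mem _, by simp [incV_zero]⟩ (fun b' a' => ?_) (fun z z' hz hz' => ?_) (q • y)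
    · rw [smul_comm (inA a₀ : (R2 P A B)) (inB b' : (R2 P A B)), ← incV_smul, smul_smul, ← map_mul]
      obtain ⟨a'', h₁, e₁⟩ := T.pull_pow (l := l) (min a u) (J := zId T.z ^ b)
        (Ideal.mul_mem_right b' _ (Ideal.pow_le_pow_right (min_le_left a u) hβ))
        (mem_vecIn.2 fun i => Ideal.mul_mem_right (a' i) _ ha₀ : a₀ • a' ∈ vecIn (zId T.z ^ b))
      refine T.pull_more (T.vecIn_stable _) (by omega) ⟨a'', vecIn_mono ?_ h₁, e₁⟩
      rw [← pow_add]
      refine Ideal.pow_le_pow_right ?_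
      rcases le_total a u with h' | h'
      · rw [min_eq_left h']; exact hab
      · rw [min_eq_right h']
        exact le_add_of_le_left (le_mul_of_one_le_right (Nat.zero_le u) hK)
    · obtain ⟨a₁, h₁, e₁⟩ := hz
      obtain ⟨a₂, h₂, e₂⟩ := hz'
      refine ⟨a₁ + a₂, add_mem h₁ h₂, ?_⟩
      rw [smul_add, smul_add, map_add, incV_add, add_sub_add_comm]
      exact add_mem e₁ e₂
  | zero => rw [zero_smul]; exact zero_mem _
  | add c c' _ _ hc hc' => rw [add_smul]; exact add_mem hc hc'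
  | smul k c _ hc => rw [smul_eq_mul, mul_smul]; exact Submodule.smul_mem _ _ hc

/-- A lift of `mu` of every coordinate. -/
def lft (y : Fin r → (R2 P A B)) : Fin r → A := lift T.hP T.cok y

theorem smul_eq_lft (y : Fin r → (R2 P A B)) : (inB h : (R2 P A B)) • y = incV (T.lft y) := by
  rw [← T.hP_eq]
  exact smul_eq_incV_lift T.hP T.cok y

/-- The relations at step `l` and level `w` over `A ⊗ B`. -/
def relR (l w : ℕ) : Submodule (R2 P A B) (Fin r → (R2 P A B)) :=
  sp (vecIn (T.box w)) ⊔ LinearMap.range (matV (prodΔ T.Δ l))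

theorem incV_relA {l w : ℕ} {a : Fin r → A} (ha : a ∈ T.relA l w) :
    (incV a : Fin r → (R2 P A B)) ∈ T.relR l w := by
  obtain ⟨q, hq, j, hj, rfl⟩ := Submodule.mem_sup.1 ha
  obtain ⟨β, hβ, y, ⟨b, rfl⟩, rfl⟩ := Submodule.mem_sup.1 hq
  have hj0 : (incV j : Fin r → (R2 P A B)) = 0 := funext fun i => inA_mem_of_kerA (hj i trivial)
  rw [incV_add, incV_add, hj0, add_zero, Matrix.mulVecLin_apply, incV_mulVec]
  exact add_mem (Submodule.mem_sup_left (incV_mem_sp hβ))
    (Submodule.mem_sup_right ⟨_, rfl⟩)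

theorem matV_incV_Kn {l w : ℕ} {a : Fin r → A} (ha : a ∈ T.Kn l w) :
    matV (prodΔ T.Δ l) (incV a : Fin r → (R2 P A B)) ∈ T.relR (l + 1) w := by
  rw [← incV_mulVec]
  exact T.incV_relA ha

theorem mk_lft (y : Fin r → (R2 P A B)) (i : Fin r) :
    Ideal.Quotient.mk _ (T.lft y i) = mu T.hP T.cok (y i) := mk_lift T.hP T.cok y i

theorem lft_congr {y : Fin r → (R2 P A B)} {a : Fin r → A}
    (ha : ∀ i, Ideal.Quotient.mk _ (a i) = mu T.hP T.cok (y i)) :
    T.lft y - a ∈ vecIn (kerA P A B) :=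
  mem_vecIn.2 fun i => Ideal.Quotient.eq.1 ((T.mk_lft y i).trans (ha i).symm)

theorem mu_inA_mul (c : A) (q : (R2 P A B)) :
    mu T.hP T.cok ((inA c : (R2 P A B)) * q) = c • mu T.hP T.cok q := by
  rw [← map_smul, Algebra.smul_def]
  rfl

theorem lft_matV (M : Matrix (Fin r) (Fin r) A) (y : Fin r → (R2 P A B)) :
    T.lft (matV M y) - M.mulVec (T.lft y) ∈ vecIn (kerA P A B) := by
  refine T.lft_congr fun i => ?_
  simp only [matV, Matrix.mulVecLin_apply, Matrix.mulVec, dotProduct, Matrix.map_apply, map_sum,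
    T.mu_inA_mul]
  exact Finset.sum_congr rfl fun j _ => by
    rw [map_mul, T.mk_lft, ← Ideal.Quotient.algebraMap_eq, ← Algebra.smul_def]

/-- Relations over `A ⊗ B` lift to relations of the lattice. -/
theorem lft_relR {l w : ℕ} {y : Fin r → (R2 P A B)} (hy : y ∈ T.relR l w) : T.lft y ∈ T.relA l w := by
  obtain ⟨y₁, hy₁, _, ⟨y₂, rfl⟩, rfl⟩ := Submodule.mem_sup.1 hy
  have h1 : T.lft y₁ ∈ T.relA l w := by
    have key : ∀ (q : (R2 P A B)) (a : Fin r → A), a ∈ vecIn (T.box w) → ∃ a' ∈ vecIn (T.box w),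
        ∀ i, Ideal.Quotient.mk _ (a' i) = mu T.hP T.cok ((q • (incV a : Fin r → (R2 P A B))) i) := by
      intro q a ha
      obtain ⟨c, hc⟩ := Ideal.Quotient.mk_surjective (mu T.hP T.cok q)
      refine ⟨c • a, Submodule.smul_mem _ _ ha, fun i => ?_⟩
      rw [Pi.smul_apply, Pi.smul_apply, smul_eq_mul, smul_eq_mul, incV, mul_comm q, T.mu_inA_mul,
        map_mul, hc, Algebra.smul_def, Ideal.Quotient.algebraMap_eq, mul_comm]
    have : ∃ a' ∈ vecIn (T.box w), ∀ i, Ideal.Quotient.mk _ (a' i) = mu T.hP T.cok (y₁ i) :=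
      sp_induction (motive := fun y => ∃ a' ∈ vecIn (T.box w),
          ∀ i, Ideal.Quotient.mk _ (a' i) = mu T.hP T.cok (y i))
        ⟨0, zero_mem _, fun i => by simp⟩ (fun b a ha => key _ a ha)
        (fun y y' ⟨a, ha, e⟩ ⟨a', ha', e'⟩ => ⟨a + a', add_mem ha ha', fun i => by
          rw [Pi.add_apply, Pi.add_apply, map_add, map_add, e i, e' i]⟩) hy₁
    obtain ⟨a', ha', e⟩ := this
    have := add_mem (Submodule.mem_sup_right (T.lft_congr e) : _ ∈ T.relA l w)
      (Submodule.mem_sup_left (Submodule.mem_sup_left ha'))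
    rwa [sub_add_cancel] at this
  have h2 : T.lft (matV (prodΔ T.Δ l) y₂) ∈ T.relA l w := by
    have := add_mem (Submodule.mem_sup_right (T.lft_matV (prodΔ T.Δ l) y₂) : _ ∈ T.relA l w)
      (Submodule.mem_sup_left (Submodule.mem_sup_right ⟨T.lft y₂, rfl⟩))
    rwa [Matrix.mulVecLin_apply, sub_add_cancel] at this
  have h3 := T.lft_congr (y := y₁ + matV (prodΔ T.Δ l) y₂)
    (a := T.lft y₁ + T.lft (matV (prodΔ T.Δ l) y₂))
    fun i => by rw [Pi.add_apply, Pi.add_apply, map_add, map_add, T.mk_lft, T.mk_lft]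
  have := add_mem (Submodule.mem_sup_right h3 : _ ∈ T.relA l w) (add_mem h1 h2)
  rwa [sub_add_cancel] at this

/-- A kernel vector times `h` is a lattice vector of the comparison kernel. -/
theorem smul_mem_sp_Kn {l w : ℕ} {y : Fin r → (R2 P A B)}
    (hy : matV (prodΔ T.Δ l) y ∈ T.relR (l + 1) w) : (inB h : (R2 P A B)) • y ∈ sp (T.Kn l w) := by
  rw [T.smul_eq_lft]
  refine incV_mem_sp ?_
  rw [mem_Kn]
  have := sub_mem (T.lft_relR hy)
    (Submodule.mem_sup_right (T.lft_matV (prodΔ T.Δ l) y) : _ ∈ T.relA (l + 1) w)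
  rwa [sub_sub_cancel] at this

/-- The slack of the comparison. -/
def slack : Matrix (Fin r) (Fin r) A := T.s • T.Γ ^ (2 * v + 1)

theorem slack_comm (l : ℕ) : PEq p T.n (T.slack * T.Δ l) (T.Δ l * T.slack) := by
  rw [slack, Matrix.smul_mul, Matrix.mul_smul]
  exact (PEq.pow (T.Γ_comm l) _).smul _

omit [IsLocalRing B] in
theorem matV_smul (c : A) (M : Matrix (Fin r) (Fin r) A) (y : Fin r → (R2 P A B)) :
    matV (c • M) y = (inA c : (R2 P A B)) • matV M y := by
  have : ((c • M).map inA : Matrix (Fin r) (Fin r) (R2 P A B)) = (inA c : (R2 P A B)) • M.map inA :=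
    Matrix.ext fun i j => by simp [Matrix.map_apply]
  rw [matV, Matrix.mulVecLin_apply, this, Matrix.smul_mulVec]
  rfl

theorem matV_slack_Ker (l : ℕ) {y : Fin r → (R2 P A B)} (hy : y ∈ T.Ker l) : matV T.slack y ∈ T.Ker l := by
  rw [slack, matV_smul]
  exact Submodule.smul_mem _ _ (T.matV_Γ_pow_Ker l hy _)

/-- The vectors mapping into the levels of the comparison. -/
def levR (l w : ℕ) : Submodule (R2 P A B) (Fin r → (R2 P A B)) :=
  T.Ker l ⊔ T.filR (w - l * K) ⊔ sp (T.Kn l w)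

/-- Vectors in the levels go to relations after the slack and `h`. -/
theorem slack_of_levR (hK : 1 ≤ K) {l w : ℕ} (hw : w ≤ v) {y : Fin r → (R2 P A B)}
    (hy : y ∈ T.levR l w) :
    matV (prodΔ T.Δ l) (matV T.slack ((inB h : (R2 P A B)) • y)) ∈ T.relR (l + 1) w := by
  set u := w - l * K with hu
  obtain ⟨q, hq, y₃, hy₃, rfl⟩ := Submodule.mem_sup.1 hy
  obtain ⟨y₁, hy₁, y₂, hy₂, rfl⟩ := Submodule.mem_sup.1 hq
  obtain ⟨a₂, ha₂, e₂⟩ := T.filR_le_pulled hK l u hy₂ (inB h : (R2 P A B))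
  have hst := fun M hM a ha => T.Kn_mulVec (l := l) hw (M := M) hM (a := a) ha
  obtain ⟨a₂', ha₂', e₂'⟩ := T.pull_more (l := l) hst (show 2 * u + 1 ≤ 2 * v + 1 by omega)
    ⟨a₂, T.box_le_Kn (by omega) (vecIn_mono (T.zId_box u) ha₂), e₂⟩
  obtain ⟨a₃, ha₃, e₃⟩ := T.pull (l := l) hst (Submodule.smul_mem _ (inB h : (R2 P A B)) hy₃)
  obtain ⟨a₃', ha₃', e₃'⟩ := T.pull_more (l := l) (j := 1) hst (show 1 ≤ 2 * v + 1 by omega)
    ⟨a₃, ha₃, by rwa [pow_one]⟩
  have e₁ := T.matV_Γ_pow_Ker l (Submodule.smul_mem _ (inB h : (R2 P A B)) hy₁) (2 * v + 1)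
  set y := y₁ + y₂ + y₃
  have hker : (incV ((T.Γ ^ (2 * v + 1)).mulVec (T.lft y) - (a₂' + a₃')) : Fin r → (R2 P A B)) ∈ T.Ker l := by
    rw [incV_sub, incV_mulVec, ← T.smul_eq_lft, incV_add]
    simp only [y, smul_add, map_add]
    convert add_mem e₁ (add_mem e₂' e₃') using 1
    abel
  obtain ⟨b, hb⟩ := T.kernel l _ hker
  have hKn : T.slack.mulVec (T.lft y) ∈ T.Kn l w := by
    have h1 : vecIn (Ideal.span {(p : A) ^ T.n}) ≤ T.Kn l w :=
      (vecIn_mono ((T.span_p_le hw).trans (T.box_anti (Nat.sub_le w (l * K))))).trans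
        (T.box_le_Kn (by omega))
    have h2 := add_mem (h1 hb) (add_mem (T.Δ_le_Kn l w b)
      ((T.Kn l w).smul_mem T.s (add_mem ha₂' ha₃')))
    rw [slack, Matrix.smul_mulVec]
    convert h2 using 1
    rw [smul_sub]
    abel
  rw [T.smul_eq_lft, ← incV_mulVec T.slack]
  exact T.matV_incV_Kn hKn

end Data

end Vale.Agent.P202.Mixed.Assemble
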